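import Vale.Agent.P141.H103.PlaneW
import Vale.Agent.P141.PL.H588.En

/-!
# P141, line (A), [T6]: the pair (A, C) with a moving matrix slot

Vector slots `w (x, y) : ι → ℝ`, `x` the outer point, `y` the middle point.  `Gv` is the Gram
matrix of a vector slot in the middle variable, `Gs` the one of a scalar slot.  The slot is
`R k x m *ᵥ c x y`, `y` in the middle cell `m` of scale `k`, with a matrix `R k x m` which moves by
`± D k x m` when the middle cell is halved.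
-/

namespace Vale.Agent.P141.H43

open Finset Matrix Vale.Agent.P075 Vale.Agent.P141.PL Vale.Agent.P141.PL.H588
open Vale.Agent.P141.H103

noncomputable section

variable {ι : Type*} [Fintype ι]

/-! ### averages -/

/-- average over the cell `m` of scale `k` -/
def av (k : ℕ) (m : ℤ) (f : ℤ → ℝ) : ℝ := ((2 : ℝ) ^ k)⁻¹ * ∑ x ∈ iv k m, f x

/-- average of vectors -/
def avv {E : Type*} [AddCommGroup E] [Module ℝ E] (k : ℕ) (m : ℤ) (f : ℤ → E) : E :=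
  ((2 : ℝ) ^ k)⁻¹ • ∑ x ∈ iv k m, f x

theorem avv_real (k : ℕ) (m : ℤ) (f : ℤ → ℝ) : avv k m f = av k m f := rfl

theorem sum_iv_half {E : Type*} [AddCommGroup E] (k : ℕ) (m : ℤ) (f : ℤ → E) :
    ∑ x ∈ iv (k + 1) m, f x = ∑ x ∈ iv k (2 * m), f x + ∑ x ∈ iv k (2 * m + 1), f x := by
  have hU : iv (k + 1) m = iv k (2 * m) ∪ iv k (2 * m + 1) := by
    ext x
    simp only [mem_union, mem_iv, ix]
    rw [pow_succ, ← Int.ediv_ediv_of_nonneg (by positivity)]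
    omega
  have hd : Disjoint (iv k (2 * m)) (iv k (2 * m + 1)) := by
    rw [disjoint_left]
    intro x hx hx'
    rw [mem_iv] at hx hx'
    omega
  rw [hU, sum_union hd]

theorem avv_half {E : Type*} [AddCommGroup E] [Module ℝ E] (k : ℕ) (m : ℤ) (f : ℤ → E) :
    avv (k + 1) m f = (1 / 2 : ℝ) • (avv k (2 * m) f + avv k (2 * m + 1) f) := by
  unfold avv
  rw [sum_iv_half, ← smul_add, smul_smul]
  congr 1
  rw [pow_succ, mul_inv]
  ring

theorem av_half (k : ℕ) (m : ℤ) (f : ℤ → ℝ) :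
    av (k + 1) m f = (1 / 2) * (av k (2 * m) f + av k (2 * m + 1) f) := by
  have := avv_half k m f
  rwa [avv_real, avv_real, avv_real, smul_eq_mul] at this

theorem av_mono {k : ℕ} {m : ℤ} {f g : ℤ → ℝ} (h : ∀ x ∈ iv k m, f x ≤ g x) :
    av k m f ≤ av k m g :=
  mul_le_mul_of_nonneg_left (sum_le_sum h) (by positivity)

theorem av_nonneg {k : ℕ} {m : ℤ} {f : ℤ → ℝ} (h : ∀ x ∈ iv k m, 0 ≤ f x) : 0 ≤ av k m f :=
  mul_nonneg (by positivity) (sum_nonneg h)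

theorem av_add (k : ℕ) (m : ℤ) (f g : ℤ → ℝ) :
    av k m (fun x => f x + g x) = av k m f + av k m g := by
  unfold av; rw [sum_add_distrib, mul_add]

theorem av_sub (k : ℕ) (m : ℤ) (f g : ℤ → ℝ) :
    av k m (fun x => f x - g x) = av k m f - av k m g := by
  unfold av; rw [sum_sub_distrib, mul_sub]

theorem av_mul (k : ℕ) (m : ℤ) (r : ℝ) (f : ℤ → ℝ) :
    av k m (fun x => r * f x) = r * av k m f := by
  unfold av; rw [← mul_sum]; ring

/-! ### squares -/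

/-- square of the norm of a vector -/
def nsq (v : ι → ℝ) : ℝ := v ⬝ᵥ v

theorem nsq_nonneg (v : ι → ℝ) : 0 ≤ nsq v := by
  unfold nsq dotProduct
  exact sum_nonneg fun _ _ => mul_self_nonneg _

/-- inner product of matrices -/
def fro (X Y : Matrix ι ι ℝ) : ℝ := ∑ i, ∑ j, X i j * Y i j

theorem fro_self_nonneg (X : Matrix ι ι ℝ) : 0 ≤ fro X X :=
  sum_nonneg fun _ _ => sum_nonneg fun _ _ => mul_self_nonneg _

theorem fro_add_left (X Y Z : Matrix ι ι ℝ) : fro (X + Y) Z = fro X Z + fro Y Z := by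
  unfold fro
  simp only [Matrix.add_apply, add_mul, sum_add_distrib]

theorem fro_comm (X Y : Matrix ι ι ℝ) : fro X Y = fro Y X := by
  unfold fro
  exact sum_congr rfl fun i _ => sum_congr rfl fun j _ => mul_comm _ _

theorem fro_add_right (X Y Z : Matrix ι ι ℝ) : fro X (Y + Z) = fro X Y + fro X Z := by
  rw [fro_comm, fro_add_left, fro_comm Y, fro_comm Z]

theorem fro_add_self (E F : Matrix ι ι ℝ) :
    fro (E + F) (E + F) = fro E E + 2 * fro E F + fro F F := by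
  rw [fro_add_left, fro_add_right, fro_add_right, fro_comm F E]
  ring

theorem fro_smul_left (r : ℝ) (X Y : Matrix ι ι ℝ) : fro (r • X) Y = r * fro X Y := by
  unfold fro
  simp only [Matrix.smul_apply, smul_eq_mul, mul_assoc, ← mul_sum]

theorem fro_smul_right (r : ℝ) (X Y : Matrix ι ι ℝ) : fro X (r • Y) = r * fro X Y := by
  rw [fro_comm, fro_smul_left, fro_comm]

theorem fro_eq (X Y : Matrix ι ι ℝ) : fro X Y = (Xᵀ * Y).trace := by
  unfold fro Matrix.trace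
  simp only [Matrix.diag_apply, Matrix.mul_apply, Matrix.transpose_apply]
  exact sum_comm

/-- a matrix moves to the other side -/
theorem fro_mul_left (A X Y : Matrix ι ι ℝ) : fro X (A * Y) = fro (Aᵀ * X) Y := by
  rw [fro_eq, fro_eq, transpose_mul, transpose_transpose, Matrix.mul_assoc]

theorem fro_mul_right (A X Y : Matrix ι ι ℝ) : fro X (Y * A) = fro (X * Aᵀ) Y := by
  rw [fro_eq, fro_eq, transpose_mul, transpose_transpose, ← Matrix.mul_assoc,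
    Matrix.trace_mul_comm, ← Matrix.mul_assoc]

/-! ### Gram matrices -/

/-- averaged kernel -/
def Gn (a k : ℕ) (n : ℤ) (u : ℤ → Ix k → Ix k → ℝ) : Matrix (Ix k) (Ix k) ℝ := fun j j' =>
  ((2 : ℝ) ^ k)⁻¹ * av a n fun x => u x j j'

/-- Gram matrix of a vector slot in the middle variable -/
def Gv (a k : ℕ) (w : ℤ → ℤ → ι → ℝ) (n m : ℤ) : Matrix (Ix k) (Ix k) ℝ :=
  Gn a k n fun x j j' => w x (2 ^ k * m + val k j) ⬝ᵥ w x (2 ^ k * m + val k j')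

/-- Gram matrix of a scalar slot -/
def Gs (a k : ℕ) (A : ℤ → ℤ → ℝ) (n m : ℤ) : Matrix (Ix k) (Ix k) ℝ :=
  Gn a k n fun x j j' => A x (2 ^ k * m + val k j) * A x (2 ^ k * m + val k j')

theorem Gv_symm (a k : ℕ) (w : ℤ → ℤ → ι → ℝ) (n m : ℤ) : (Gv a k w n m)ᵀ = Gv a k w n m := by
  ext j j'
  simp only [Matrix.transpose_apply, Gv, Gn, dotProduct_comm]

theorem Gs_symm (a k : ℕ) (A : ℤ → ℤ → ℝ) (n m : ℤ) : (Gs a k A n m)ᵀ = Gs a k A n m := by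
  ext j j'
  simp only [Matrix.transpose_apply, Gs, Gn]
  congr 1
  exact congrArg _ (funext fun x => mul_comm _ _)

theorem Gv_out (a k : ℕ) (w : ℤ → ℤ → ι → ℝ) (n m : ℤ) :
    Gv (a + 1) k w n m = (1 / 2 : ℝ) • (Gv a k w (2 * n) m + Gv a k w (2 * n + 1) m) := by
  ext j j'
  simp only [Gv, Gn, Matrix.smul_apply, Matrix.add_apply, smul_eq_mul]
  rw [av_half]
  ring

theorem Gs_out (a k : ℕ) (A : ℤ → ℤ → ℝ) (n m : ℤ) :
    Gs (a + 1) k A n m = (1 / 2 : ℝ) • (Gs a k A (2 * n) m + Gs a k A (2 * n + 1) m) := by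
  ext j j'
  simp only [Gs, Gn, Matrix.smul_apply, Matrix.add_apply, smul_eq_mul]
  rw [av_half]
  ring

/-- average over the middle cell, index form -/
theorem sum_val_iv {E : Type*} [AddCommGroup E] (k : ℕ) (m : ℤ) (f : ℤ → E) :
    ∑ j : Ix k, f (2 ^ k * m + val k j) = ∑ x ∈ iv k m, f x := by
  induction k generalizing m with
  | zero =>
    have h : ∑ j : Ix 0, f (2 ^ 0 * m + val 0 j) = ∑ j : Unit, f (2 ^ 0 * m + (0 : ℕ)) := rfl
    rw [h]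
    have h2 : iv 0 m = {m} := by
      ext x
      rw [mem_iv, mem_singleton, ix_zero]
    rw [h2]
    simp
  | succ k ih =>
    have h1 : ∑ j : Ix (k + 1), f (2 ^ (k + 1) * m + val (k + 1) j)
        = ∑ j : Ix k ⊕ Ix k, f (2 ^ (k + 1) * m + val (k + 1) j) := rfl
    rw [h1, Fintype.sum_sum_type, sum_iv_half, ← ih, ← ih]
    congr 1
    · refine sum_congr rfl fun j _ => ?_
      have : (val (k + 1) (Sum.inl j) : ℤ) = val k j := rfl
      rw [this]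
      congr 1
      ring
    · refine sum_congr rfl fun j _ => ?_
      have : (val (k + 1) (Sum.inr j) : ℤ) = 2 ^ k + val k j := by
        have h3 : val (k + 1) (Sum.inr j) = 2 ^ k + val k j := rfl
        rw [h3]
        push_cast
        ring
      rw [this]
      congr 1
      ring

/-- the mixed pair: mean of the product over the middle cell -/
def pv (k : ℕ) (m : ℤ) (A : ℤ → ℤ → ℝ) (w : ℤ → ℤ → ι → ℝ) (x z : ℤ) : ι → ℝ :=
  avv k m fun y => A z y • w x y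

/-- the own pair: mean of the tensor product over the middle cell -/
def Wm (k : ℕ) (m : ℤ) (w : ℤ → ℤ → ι → ℝ) (x z : ℤ) : Matrix ι ι ℝ :=
  avv k m fun y => vecMulVec (w x y) (w z y)

theorem sum3_comm {J X Z : Type*} (s : Finset J) (t : Finset X) (u : Finset Z)
    (f : J → J → X → Z → ℝ) :
    ∑ j ∈ s, ∑ j' ∈ s, ∑ x ∈ t, ∑ z ∈ u, f j j' x z
      = ∑ x ∈ t, ∑ z ∈ u, ∑ j ∈ s, ∑ j' ∈ s, f j j' x z := by
  calc ∑ j ∈ s, ∑ j' ∈ s, ∑ x ∈ t, ∑ z ∈ u, f j j' x z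
      = ∑ j ∈ s, ∑ x ∈ t, ∑ j' ∈ s, ∑ z ∈ u, f j j' x z :=
        sum_congr rfl fun j _ => sum_comm
    _ = ∑ x ∈ t, ∑ j ∈ s, ∑ j' ∈ s, ∑ z ∈ u, f j j' x z := sum_comm
    _ = ∑ x ∈ t, ∑ j ∈ s, ∑ z ∈ u, ∑ j' ∈ s, f j j' x z :=
        sum_congr rfl fun x _ => sum_congr rfl fun j _ => sum_comm
    _ = ∑ x ∈ t, ∑ z ∈ u, ∑ j ∈ s, ∑ j' ∈ s, f j j' x z :=
        sum_congr rfl fun x _ => sum_comm

/-- the trace of a product of two averaged kernels -/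
theorem tr_gen (a a' k : ℕ) (n n' : ℤ) (u : ℤ → Ix k → Ix k → ℝ) (v : ℤ → Ix k → Ix k → ℝ) :
    (Gn a k n u * Gn a' k n' v).trace
      = av a n fun x => av a' n' fun z => (((2 : ℝ) ^ k)⁻¹ * ((2 : ℝ) ^ k)⁻¹) *
        ∑ j : Ix k, ∑ j' : Ix k, u x j j' * v z j' j := by
  have e1 : ∀ j j' : Ix k, (((2 : ℝ) ^ k)⁻¹ * av a n fun x => u x j j') *
      (((2 : ℝ) ^ k)⁻¹ * av a' n' fun z => v z j' j)
      = ∑ x ∈ iv a n, ∑ z ∈ iv a' n', (((2 : ℝ) ^ k)⁻¹ * ((2 : ℝ) ^ k)⁻¹ *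
        (((2 : ℝ) ^ a)⁻¹ * ((2 : ℝ) ^ a')⁻¹)) * (u x j j' * v z j' j) := by
    intro j j'
    simp only [← mul_sum, ← sum_mul]
    unfold av
    ring
  simp only [Matrix.trace, Matrix.diag_apply, Matrix.mul_apply]
  unfold Gn
  simp only [e1]
  rw [sum3_comm]
  unfold av
  simp only [mul_sum]
  refine sum_congr rfl fun x _ => sum_congr rfl fun z _ => sum_congr rfl fun j _ =>
    sum_congr rfl fun j' _ => ?_
  ring

/-- **mixed trace** -/
theorem tr_vs (a a' k : ℕ) (w : ℤ → ℤ → ι → ℝ) (A : ℤ → ℤ → ℝ) (n n' m : ℤ) :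
    (Gv a k w n m * Gs a' k A n' m).trace
      = av a n fun x => av a' n' fun z => nsq (pv k m A w x z) := by
  have h1 : ∀ x z, nsq (pv k m A w x z) = (((2 : ℝ) ^ k)⁻¹ * ((2 : ℝ) ^ k)⁻¹) *
      ∑ j : Ix k, ∑ j' : Ix k, (w x (2 ^ k * m + val k j) ⬝ᵥ w x (2 ^ k * m + val k j')) *
        (A z (2 ^ k * m + val k j') * A z (2 ^ k * m + val k j)) := by
    intro x z
    unfold nsq pv avv
    rw [← sum_val_iv, smul_dotProduct, dotProduct_smul, smul_eq_mul, smul_eq_mul, ← mul_assoc]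
    congr 1
    rw [sum_dotProduct]
    refine sum_congr rfl fun j _ => ?_
    rw [dotProduct_sum]
    refine sum_congr rfl fun j' _ => ?_
    rw [smul_dotProduct, dotProduct_smul, smul_eq_mul, smul_eq_mul]
    ring
  simp only [h1]
  exact tr_gen a a' k _ _ _ _

theorem nsqm_sum {J : Type*} (s : Finset J) (u v : J → ι → ℝ) :
    fro (∑ j ∈ s, vecMulVec (u j) (v j)) (∑ j ∈ s, vecMulVec (u j) (v j))
      = ∑ j ∈ s, ∑ j' ∈ s, (u j ⬝ᵥ u j') * (v j' ⬝ᵥ v j) := by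
  have h : ∀ i i', (∑ j ∈ s, vecMulVec (u j) (v j)) i i' = ∑ j ∈ s, u j i * v j i' := by
    intro i i'
    rw [Matrix.sum_apply]
    rfl
  unfold fro
  simp only [h, sum_mul_sum]
  calc ∑ i, ∑ i', ∑ j ∈ s, ∑ j' ∈ s, u j i * v j i' * (u j' i * v j' i')
      = ∑ j ∈ s, ∑ j' ∈ s, ∑ i, ∑ i', u j i * v j i' * (u j' i * v j' i') :=
        (sum3_comm s univ univ fun j j' i i' => u j i * v j i' * (u j' i * v j' i')).symm
    _ = _ := by
      refine sum_congr rfl fun j _ => sum_congr rfl fun j' _ => ?_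
      unfold dotProduct
      rw [sum_mul_sum]
      refine sum_congr rfl fun i _ => sum_congr rfl fun i' _ => ?_
      ring

/-- **own trace** -/
theorem tr_vv (a k : ℕ) (w : ℤ → ℤ → ι → ℝ) (n m : ℤ) :
    (Gv a k w n m * Gv a k w n m).trace
      = av a n fun x => av a n fun z => fro (Wm k m w x z) (Wm k m w x z) := by
  have h1 : ∀ x z, fro (Wm k m w x z) (Wm k m w x z) = (((2 : ℝ) ^ k)⁻¹ * ((2 : ℝ) ^ k)⁻¹) *
      ∑ j : Ix k, ∑ j' : Ix k, (w x (2 ^ k * m + val k j) ⬝ᵥ w x (2 ^ k * m + val k j')) *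
        (w z (2 ^ k * m + val k j') ⬝ᵥ w z (2 ^ k * m + val k j)) := by
    intro x z
    unfold Wm avv
    rw [← sum_val_iv, fro_smul_left, fro_smul_right, ← mul_assoc, nsqm_sum]
  simp only [h1]
  exact tr_gen a a k _ _ _ _

/-- own trace of a scalar slot -/
theorem tr_ss (a k : ℕ) (A : ℤ → ℤ → ℝ) (n m : ℤ) :
    (Gs a k A n m * Gs a k A n m).trace
      = av a n fun x => av a n fun z => (av k m fun y => A x y * A z y) ^ 2 := by
  have h1 : ∀ x z, (av k m fun y => A x y * A z y) ^ 2 = (((2 : ℝ) ^ k)⁻¹ * ((2 : ℝ) ^ k)⁻¹) *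
      ∑ j : Ix k, ∑ j' : Ix k, (A x (2 ^ k * m + val k j) * A x (2 ^ k * m + val k j')) *
        (A z (2 ^ k * m + val k j') * A z (2 ^ k * m + val k j)) := by
    intro x z
    unfold av
    rw [← sum_val_iv, mul_pow, pow_two, pow_two, sum_mul_sum]
    congr 1
    refine sum_congr rfl fun j _ => sum_congr rfl fun j' _ => ?_
    ring
  simp only [h1]
  exact tr_gen a a k _ _ _ _

/-! ### linearity -/

theorem mulVec_avv (M : Matrix ι ι ℝ) (k : ℕ) (m : ℤ) (f : ℤ → ι → ℝ) :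
    M *ᵥ avv k m f = avv k m fun y => M *ᵥ f y := by
  unfold avv
  rw [mulVec_smul]
  congr 1
  exact map_sum M.mulVecLin f (iv k m)

/-- a slot with a matrix in front -/
def slot (R : ℤ → Matrix ι ι ℝ) (c : ℤ → ℤ → ι → ℝ) : ℤ → ℤ → ι → ℝ := fun x y => R x *ᵥ c x y

theorem pv_slot (k : ℕ) (m : ℤ) (A : ℤ → ℤ → ℝ) (R : ℤ → Matrix ι ι ℝ) (c : ℤ → ℤ → ι → ℝ)
    (x z : ℤ) : pv k m A (slot R c) x z = R x *ᵥ pv k m A c x z := by
  unfold pv
  rw [mulVec_avv]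
  congr 1
  funext y
  rw [mulVec_smul]
  rfl

theorem Wm_slot (k : ℕ) (m : ℤ) (R : ℤ → Matrix ι ι ℝ) (c : ℤ → ℤ → ι → ℝ) (x z : ℤ) :
    Wm k m (slot R c) x z = R x * Wm k m c x z * (R z)ᵀ := by
  unfold Wm avv slot
  rw [Matrix.mul_smul, Matrix.smul_mul, Matrix.mul_sum, Matrix.sum_mul]
  congr 1
  refine sum_congr rfl fun y _ => ?_
  rw [Matrix.mul_vecMulVec, Matrix.vecMulVec_mul, vecMul_transpose]

/-- half difference of the mixed pair -/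
def dpv (k : ℕ) (m : ℤ) (A : ℤ → ℤ → ℝ) (w : ℤ → ℤ → ι → ℝ) (x z : ℤ) : ι → ℝ :=
  (1 / 2 : ℝ) • (pv k (2 * m) A w x z - pv k (2 * m + 1) A w x z)

/-- half difference of the own pair -/
def dWm (k : ℕ) (m : ℤ) (w : ℤ → ℤ → ι → ℝ) (x z : ℤ) : Matrix ι ι ℝ :=
  (1 / 2 : ℝ) • (Wm k (2 * m) w x z - Wm k (2 * m + 1) w x z)

omit [Fintype ι] in
theorem pv_even (k : ℕ) (m : ℤ) (A : ℤ → ℤ → ℝ) (w : ℤ → ℤ → ι → ℝ) (x z : ℤ) :
    pv k (2 * m) A w x z = pv (k + 1) m A w x z + dpv k m A w x z := by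
  unfold dpv
  have : pv (k + 1) m A w x z = (1 / 2 : ℝ) • (pv k (2 * m) A w x z + pv k (2 * m + 1) A w x z) :=
    avv_half k m _
  rw [this]
  module

omit [Fintype ι] in
theorem pv_odd (k : ℕ) (m : ℤ) (A : ℤ → ℤ → ℝ) (w : ℤ → ℤ → ι → ℝ) (x z : ℤ) :
    pv k (2 * m + 1) A w x z = pv (k + 1) m A w x z - dpv k m A w x z := by
  unfold dpv
  have : pv (k + 1) m A w x z = (1 / 2 : ℝ) • (pv k (2 * m) A w x z + pv k (2 * m + 1) A w x z) :=
    avv_half k m _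
  rw [this]
  module

omit [Fintype ι] in
theorem Wm_even (k : ℕ) (m : ℤ) (w : ℤ → ℤ → ι → ℝ) (x z : ℤ) :
    Wm k (2 * m) w x z = Wm (k + 1) m w x z + dWm k m w x z := by
  unfold dWm
  have : Wm (k + 1) m w x z = (1 / 2 : ℝ) • (Wm k (2 * m) w x z + Wm k (2 * m + 1) w x z) :=
    avv_half k m _
  rw [this]
  module

omit [Fintype ι] in
theorem Wm_odd (k : ℕ) (m : ℤ) (w : ℤ → ℤ → ι → ℝ) (x z : ℤ) :
    Wm k (2 * m + 1) w x z = Wm (k + 1) m w x z - dWm k m w x z := by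
  unfold dWm
  have : Wm (k + 1) m w x z = (1 / 2 : ℝ) • (Wm k (2 * m) w x z + Wm k (2 * m + 1) w x z) :=
    avv_half k m _
  rw [this]
  module

/-! ### pointwise inequalities -/

theorem nsq_add (u v : ι → ℝ) : nsq (u + v) = nsq u + 2 * (u ⬝ᵥ v) + nsq v := by
  unfold nsq
  rw [add_dotProduct, dotProduct_add, dotProduct_add, dotProduct_comm v u]
  ring

theorem nsq_sub (u v : ι → ℝ) : nsq (u - v) = nsq u - 2 * (u ⬝ᵥ v) + nsq v := by
  unfold nsq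
  rw [sub_dotProduct, dotProduct_sub, dotProduct_sub, dotProduct_comm v u]
  ring

/-- **middle step, pointwise** -/
theorem mid_pt (R : Matrix ι ι ℝ) {D : Matrix ι ι ℝ} (hD : Dᵀ = D) (p d : ι → ℝ) :
    nsq (R *ᵥ p) + (1 / 2 * nsq (R *ᵥ d) - 2 * |(D *ᵥ (R *ᵥ p)) ⬝ᵥ d| - nsq (D *ᵥ p))
      ≤ 1 / 2 * (nsq ((R + D) *ᵥ (p + d)) + nsq ((R - D) *ᵥ (p - d))) := by
  have e1 : (R + D) *ᵥ (p + d) = (R *ᵥ p + D *ᵥ d) + (R *ᵥ d + D *ᵥ p) := by
    rw [add_mulVec, mulVec_add, mulVec_add]; abel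
  have e2 : (R - D) *ᵥ (p - d) = (R *ᵥ p + D *ᵥ d) - (R *ᵥ d + D *ᵥ p) := by
    rw [sub_mulVec, mulVec_sub, mulVec_sub]; abel
  have e3 : (R *ᵥ p) ⬝ᵥ (D *ᵥ d) = (D *ᵥ (R *ᵥ p)) ⬝ᵥ d := by
    rw [dotProduct_mulVec, ← mulVec_transpose, hD]
  have h1 := nsq_nonneg (R *ᵥ d + (2 : ℝ) • (D *ᵥ p))
  have e4 : nsq (R *ᵥ d + (2 : ℝ) • (D *ᵥ p))
      = nsq (R *ᵥ d) + 4 * ((R *ᵥ d) ⬝ᵥ (D *ᵥ p)) + 4 * nsq (D *ᵥ p) := by
    rw [nsq_add, dotProduct_smul]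
    unfold nsq
    rw [smul_dotProduct, dotProduct_smul, smul_eq_mul, smul_eq_mul, smul_eq_mul]
    ring
  have h2 := nsq_nonneg (D *ᵥ d)
  have h3 := neg_abs_le ((D *ᵥ (R *ᵥ p)) ⬝ᵥ d)
  rw [e1, e2, nsq_add, nsq_sub]
  have e5 := nsq_add (R *ᵥ p) (D *ᵥ d)
  have e6 := nsq_add (R *ᵥ d) (D *ᵥ p)
  rw [e3] at e5
  linarith

/-- **own middle step, pointwise** -/
theorem own_pt (R D R' D' W dW : Matrix ι ι ℝ) :
    fro (R * W * R'ᵀ) (R * W * R'ᵀ)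
      ≤ 1 / 2 * (fro ((R + D) * (W + dW) * (R' + D')ᵀ) ((R + D) * (W + dW) * (R' + D')ᵀ)
        + fro ((R - D) * (W - dW) * (R' - D')ᵀ) ((R - D) * (W - dW) * (R' - D')ᵀ))
        + 2 * (|fro (Dᵀ * (R * W * R'ᵀ)) (dW * R'ᵀ)| + |fro ((R * W * R'ᵀ) * D') (R * dW)|
          + |fro (Dᵀ * (R * W * R'ᵀ)) (W * D'ᵀ)|) := by
  set X := (R + D) * (W + dW) * (R' + D')ᵀ with hX
  set Y := (R - D) * (W - dW) * (R' - D')ᵀ with hY
  set E := R * W * R'ᵀ with hE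
  set F := D * (dW * R'ᵀ) + (R * dW) * D'ᵀ + D * (W * D'ᵀ) with hF
  have e1 : (1 / 2 : ℝ) • (X + Y) = E + F := by
    rw [hX, hY, hE, hF, transpose_add, transpose_sub]
    have : (R + D) * (W + dW) * (R'ᵀ + D'ᵀ) + (R - D) * (W - dW) * (R'ᵀ - D'ᵀ)
        = (2 : ℝ) • (R * W * R'ᵀ + (D * (dW * R'ᵀ) + (R * dW) * D'ᵀ + D * (W * D'ᵀ))) := by
      rw [two_smul]
      noncomm_ring
    rw [this, smul_smul]
    norm_num
  have e2 : fro X X + fro Y Y = 2 * fro ((1 / 2 : ℝ) • (X + Y)) ((1 / 2 : ℝ) • (X + Y))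
      + 2 * fro ((1 / 2 : ℝ) • (X - Y)) ((1 / 2 : ℝ) • (X - Y)) := by
    unfold fro
    simp only [mul_sum, ← sum_add_distrib]
    refine sum_congr rfl fun i _ => sum_congr rfl fun j _ => ?_
    simp only [Matrix.smul_apply, Matrix.add_apply, Matrix.sub_apply, smul_eq_mul]
    ring
  have h1 := fro_self_nonneg ((1 / 2 : ℝ) • (X - Y))
  have e3 : fro (E + F) (E + F) = fro E E + 2 * fro E F + fro F F := fro_add_self E F
  have h2 := fro_self_nonneg F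
  have e4 : fro E F = fro (Dᵀ * E) (dW * R'ᵀ) + fro (E * D') (R * dW)
      + fro (Dᵀ * E) (W * D'ᵀ) := by
    rw [hF, fro_add_right, fro_add_right, fro_mul_left D E (dW * R'ᵀ),
      fro_mul_right D'ᵀ E (R * dW), fro_mul_left D E (W * D'ᵀ), transpose_transpose]
  have a1 := neg_abs_le (fro (Dᵀ * E) (dW * R'ᵀ))
  have a2 := neg_abs_le (fro (E * D') (R * dW))
  have a3 := neg_abs_le (fro (Dᵀ * E) (W * D'ᵀ))
  rw [e2, e1, e3]
  linarith

/-! ### the families -/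

/-- the matrices move when the middle cell is halved -/
def Mvg (R D : ℕ → ℤ → ℤ → Matrix ι ι ℝ) : Prop := ∀ k x m,
  R k x (2 * m) = R (k + 1) x m + D k x m ∧ R k x (2 * m + 1) = R (k + 1) x m - D k x m

/-- the family of the moving slot -/
def PR (R : ℕ → ℤ → ℤ → Matrix ι ι ℝ) (w : ℤ → ℤ → ι → ℝ) (k a : ℕ) (n m : ℤ) :
    Matrix (Ix k) (Ix k) ℝ := Gv a k (slot (fun x => R k x m) w) n m

/-- the family of the scalar slot -/
def QA (A : ℤ → ℤ → ℝ) (k a : ℕ) (n m : ℤ) : Matrix (Ix k) (Ix k) ℝ := Gs a k A n m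

theorem PR_symm (R : ℕ → ℤ → ℤ → Matrix ι ι ℝ) (w : ℤ → ℤ → ι → ℝ) (k a : ℕ) (n m : ℤ) :
    (PR R w k a n m)ᵀ = PR R w k a n m := Gv_symm _ _ _ _ _

theorem QA_symm (A : ℤ → ℤ → ℝ) (k a : ℕ) (n m : ℤ) : (QA A k a n m)ᵀ = QA A k a n m :=
  Gs_symm _ _ _ _ _

theorem PR_out (R : ℕ → ℤ → ℤ → Matrix ι ι ℝ) (w : ℤ → ℤ → ι → ℝ) (N k : ℕ) :
    OutM N k (PR R w k) := fun a _ _ n m => Gv_out a k _ n m

theorem QA_out (A : ℤ → ℤ → ℝ) (N k : ℕ) : OutM N k (QA A k) := fun a _ _ n m => Gs_out a k _ n m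

theorem tr_PR (R : ℕ → ℤ → ℤ → Matrix ι ι ℝ) (w : ℤ → ℤ → ι → ℝ) (A : ℤ → ℤ → ℝ) (k a a' : ℕ)
    (n n' m : ℤ) : (PR R w k a n m * QA A k a' n' m).trace
      = av a n fun x => av a' n' fun z => nsq (R k x m *ᵥ pv k m A w x z) := by
  unfold PR QA
  rw [tr_vs]
  simp only [pv_slot]

theorem tr_PR_own (R : ℕ → ℤ → ℤ → Matrix ι ι ℝ) (w : ℤ → ℤ → ι → ℝ) (k a : ℕ) (n m : ℤ) :
    (PR R w k a n m * PR R w k a n m).trace = av a n fun x => av a n fun z =>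
      fro (R k x m * Wm k m w x z * (R k z m)ᵀ) (R k x m * Wm k m w x z * (R k z m)ᵀ) := by
  unfold PR
  rw [tr_vv]
  simp only [Wm_slot]

/-- main term of the gain -/
def gM (R : ℕ → ℤ → ℤ → Matrix ι ι ℝ) (w : ℤ → ℤ → ι → ℝ) (A : ℤ → ℤ → ℝ) (k : ℕ)
    (n n' m : ℤ) : ℝ :=
  av (k + 1) n fun x => av (k + 1) n' fun z => nsq (R (k + 1) x m *ᵥ dpv k m A w x z)

/-- defect of the gain -/
def gE (R D : ℕ → ℤ → ℤ → Matrix ι ι ℝ) (w : ℤ → ℤ → ι → ℝ) (A : ℤ → ℤ → ℝ) (k : ℕ)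
    (n n' m : ℤ) : ℝ :=
  av (k + 1) n fun x => av (k + 1) n' fun z =>
    2 * |(D k x m *ᵥ (R (k + 1) x m *ᵥ pv (k + 1) m A w x z)) ⬝ᵥ dpv k m A w x z|
      + nsq (D k x m *ᵥ pv (k + 1) m A w x z)

/-- **The middle step of the mixed pair.** -/
theorem midR {R D : ℕ → ℤ → ℤ → Matrix ι ι ℝ} (h : Mvg R D) (hD : ∀ k x m, (D k x m)ᵀ = D k x m)
    (w : ℤ → ℤ → ι → ℝ) (A : ℤ → ℤ → ℝ) (k : ℕ) (n n' m : ℤ) :
    (PR R w (k + 1) (k + 1) n m * QA A (k + 1) (k + 1) n' m).trace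
        + (1 / 2 * gM R w A k n n' m - gE R D w A k n n' m)
      ≤ 1 / 2 * ((PR R w k (k + 1) n (2 * m) * QA A k (k + 1) n' (2 * m)).trace
        + (PR R w k (k + 1) n (2 * m + 1) * QA A k (k + 1) n' (2 * m + 1)).trace) := by
  rw [tr_PR, tr_PR, tr_PR, gM, gE]
  simp only [← av_mul, ← av_add, ← av_sub]
  refine av_mono fun x _ => av_mono fun z _ => ?_
  rw [pv_even, pv_odd, (h k x m).1, (h k x m).2]
  have := mid_pt (R (k + 1) x m) (hD k x m) (pv (k + 1) m A w x z) (dpv k m A w x z)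
  linarith

/-- the pointwise defect of the own energy -/
def dO (R D : ℕ → ℤ → ℤ → Matrix ι ι ℝ) (w : ℤ → ℤ → ι → ℝ) (k : ℕ) (m x z : ℤ) : ℝ :=
  2 * (|fro ((D k x m)ᵀ * (R (k + 1) x m * Wm (k + 1) m w x z * (R (k + 1) z m)ᵀ))
      (dWm k m w x z * (R (k + 1) z m)ᵀ)|
    + |fro ((R (k + 1) x m * Wm (k + 1) m w x z * (R (k + 1) z m)ᵀ) * D k z m)
      (R (k + 1) x m * dWm k m w x z)|
    + |fro ((D k x m)ᵀ * (R (k + 1) x m * Wm (k + 1) m w x z * (R (k + 1) z m)ᵀ))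
      (Wm (k + 1) m w x z * (D k z m)ᵀ)|)

/-- the defect of the own energy -/
def dER (N : ℕ) (R₁ S : ℤ) (R D : ℕ → ℤ → ℤ → Matrix ι ι ℝ) (w : ℤ → ℤ → ι → ℝ) (k a : ℕ) : ℝ :=
  (2 : ℝ) ^ a * 2 ^ (k + 1) * ∑ m ∈ iv (N - (k + 1)) S, ∑ n ∈ iv (N - a) R₁,
    av a n fun x => av a n fun z => dO R D w k m x z

theorem EW_step {κ κ' : Type*} [Fintype κ] [Fintype κ'] {N k : ℕ} (hk : k < N) (R₁ S : ℤ)
    (P : ℕ → ℤ → ℤ → Matrix κ κ ℝ) (P' : ℕ → ℤ → ℤ → Matrix κ' κ' ℝ) (d : ℤ → ℤ → ℝ) (a : ℕ)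
    (h : ∀ n m, (P a n m * P a n m).trace
      ≤ 1 / 2 * ((P' a n (2 * m) * P' a n (2 * m)).trace
        + (P' a n (2 * m + 1) * P' a n (2 * m + 1)).trace) + d n m) :
    EW N R₁ S (k + 1) P a ≤ EW N R₁ S k P' a
      + (2 : ℝ) ^ a * 2 ^ (k + 1) * ∑ m ∈ iv (N - (k + 1)) S, ∑ n ∈ iv (N - a) R₁, d n m := by
  unfold EW
  obtain ⟨l, hl⟩ : ∃ l, N - k = l + 1 := ⟨N - k - 1, by omega⟩
  have hl' : N - (k + 1) = l := by omega
  rw [hl, hl', sum_iv_succ]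
  have h1 : ∑ m ∈ iv l S, ∑ n ∈ iv (N - a) R₁, (P a n m * P a n m).trace
      ≤ ∑ m ∈ iv l S, ∑ n ∈ iv (N - a) R₁, (1 / 2 * ((P' a n (2 * m) * P' a n (2 * m)).trace
        + (P' a n (2 * m + 1) * P' a n (2 * m + 1)).trace) + d n m) :=
    sum_le_sum fun m _ => sum_le_sum fun n _ => h n m
  refine (mul_le_mul_of_nonneg_left h1 (by positivity)).trans (le_of_eq ?_)
  simp only [sum_add_distrib, ← mul_sum]
  rw [pow_succ]
  ring

/-- **The own middle step of the moving slot.** -/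
theorem ownR {R D : ℕ → ℤ → ℤ → Matrix ι ι ℝ} (h : Mvg R D) (w : ℤ → ℤ → ι → ℝ) {N k : ℕ}
    (hk : k < N) (R₁ S : ℤ) (a : ℕ) :
    EW N R₁ S (k + 1) (PR R w (k + 1)) a
      ≤ EW N R₁ S k (PR R w k) a + dER N R₁ S R D w k a := by
  refine EW_step hk R₁ S _ _ _ a fun n m => ?_
  rw [tr_PR_own, tr_PR_own, tr_PR_own]
  simp only [← av_mul, ← av_add]
  refine av_mono fun x _ => av_mono fun z _ => ?_
  rw [Wm_even, Wm_odd, (h k x m).1, (h k x m).2, (h k z m).1, (h k z m).2, dO]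
  have := own_pt (R (k + 1) x m) (D k x m) (R (k + 1) z m) (D k z m) (Wm (k + 1) m w x z)
    (dWm k m w x z)
  linarith

/-- **The own middle step of a static scalar slot.** -/
theorem ownA (A : ℤ → ℤ → ℝ) {N k : ℕ} (hk : k < N) (R₁ S : ℤ) (a : ℕ) :
    EW N R₁ S (k + 1) (QA A (k + 1)) a ≤ EW N R₁ S k (QA A k) a := by
  have h := EW_step hk R₁ S (QA A (k + 1)) (QA A k) (fun _ _ => 0) a fun n m => by
    unfold QA
    rw [tr_ss, tr_ss, tr_ss, add_zero]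
    simp only [← av_mul, ← av_add]
    refine av_mono fun x _ => av_mono fun z _ => ?_
    rw [av_half]
    nlinarith [sq_nonneg ((av k (2 * m) fun y => A x y * A z y)
      - av k (2 * m + 1) fun y => A x y * A z y)]
  simpa using h

/-! ### plane sums -/

theorem GW_add (N : ℕ) (R S T : ℤ) (k : ℕ) (c : ℤ) (f g : ℤ → ℤ → ℤ → ℝ) :
    GW N R S T k c (fun n n' m => f n n' m + g n n' m)
      = GW N R S T k c f + GW N R S T k c g := by
  unfold GW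
  rw [← mul_add, ← sum_add_distrib]
  congr 1
  refine sum_congr rfl fun m _ => ?_
  rw [← sum_add_distrib]
  refine sum_congr rfl fun n _ => ?_
  split_ifs
  · rfl
  · rw [add_zero]

theorem GW_mul (N : ℕ) (R S T : ℤ) (k : ℕ) (c : ℤ) (r : ℝ) (f : ℤ → ℤ → ℤ → ℝ) :
    GW N R S T k c (fun n n' m => r * f n n' m) = r * GW N R S T k c f := by
  unfold GW
  simp only [mul_sum]
  refine sum_congr rfl fun m _ => sum_congr rfl fun n _ => ?_
  split_ifs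
  · ring
  · ring

theorem GW_mono (N : ℕ) (R S T : ℤ) (k : ℕ) (c : ℤ) {f g : ℤ → ℤ → ℤ → ℝ}
    (h : ∀ n n' m, f n n' m ≤ g n n' m) : GW N R S T k c f ≤ GW N R S T k c g := by
  unfold GW
  refine mul_le_mul_of_nonneg_left (sum_le_sum fun m _ => sum_le_sum fun n _ => ?_) (by positivity)
  split_ifs
  · exact h _ _ _
  · exact le_rfl

/-- **The pair `(A, C)` with the moving matrix slot.**  `w k`, `A k` : the functions of time `k`. -/
theorem pairR {k₀ N : ℕ} (hkN : k₀ ≤ N) {R₁ S T : ℤ} {cc : ℕ → ℤ} (hc : H588.Pl cc)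
    {R D : ℕ → ℤ → ℤ → Matrix ι ι ℝ} (h : Mvg R D) (hD : ∀ k x m, (D k x m)ᵀ = D k x m)
    (w : ℕ → ℤ → ℤ → ι → ℝ) (A : ℕ → ℤ → ℤ → ℝ) {x : ℕ → ℝ}
    (hx : ∀ k, k₀ ≤ k → k < N →
      MW N R₁ S T k (cc k) (PR R (w (k + 1)) k k) (QA (A (k + 1)) k k)
        + 9 * (WW N k (EW N R₁ S k (PR R (w (k + 1)) k)) + WW N k (EW N T S k (QA (A (k + 1)) k)))
      ≤ MW N R₁ S T k (cc k) (PR R (w k) k k) (QA (A k) k k)
        + 9 * (WW N k (EW N R₁ S k (PR R (w k) k)) + WW N k (EW N T S k (QA (A k) k))) + x k) :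
    ∑ k ∈ Ico k₀ N, GW N R₁ S T (k + 1) (cc (k + 1)) (gM R (w (k + 1)) (A (k + 1)) k)
      ≤ 2 * (37 * (EW N R₁ S k₀ (PR R (w k₀) k₀) k₀ + EW N T S k₀ (QA (A k₀) k₀) k₀)
        + ∑ k ∈ Ico k₀ N, x k
        + ∑ k ∈ Ico k₀ N, GW N R₁ S T (k + 1) (cc (k + 1)) (gE R D (w (k + 1)) (A (k + 1)) k)
        + 9 * ∑ k ∈ Ico k₀ N, WW N (k + 1) (dER N R₁ S R D (w (k + 1)) k)) := by
  have key := totalW hkN hc (R := R₁) (S := S) (T := T) (ι := fun k => Ix k)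
    (P := fun k => PR R (w k) k) (P' := fun k => PR R (w (k + 1)) k)
    (Q := fun k => QA (A k) k) (Q' := fun k => QA (A (k + 1)) k)
    (g := fun k n n' m => 1 / 2 * gM R (w (k + 1)) (A (k + 1)) k n n' m
      - gE R D (w (k + 1)) (A (k + 1)) k n n' m)
    (dE := fun k => dER N R₁ S R D (w (k + 1)) k) (dF := fun _ _ => 0) (x := x)
    (fun k _ _ => PR_out R (w k) N k) (fun k _ _ => QA_out (A k) N k)
    (fun k _ _ => PR_out R (w (k + 1)) N k) (fun k _ _ => QA_out (A (k + 1)) N k)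
    (fun k a n m => PR_symm R (w k) k a n m) (fun k a n m => QA_symm (A k) k a n m)
    (fun k a n m => PR_symm R (w (k + 1)) k a n m) (fun k a n m => QA_symm (A (k + 1)) k a n m)
    (fun k _ _ n n' m => midR h hD (w (k + 1)) (A (k + 1)) k n n' m)
    (fun k _ h2 a _ _ => ownR h (w (k + 1)) h2 R₁ S a)
    (fun k _ h2 a _ _ => by
      have := ownA (A (k + 1)) h2 T S a
      rw [add_zero]
      exact this)
    hx
  have e1 : ∀ k, GW N R₁ S T (k + 1) (cc (k + 1))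
      (fun n n' m => 1 / 2 * gM R (w (k + 1)) (A (k + 1)) k n n' m
        - gE R D (w (k + 1)) (A (k + 1)) k n n' m)
      = 1 / 2 * GW N R₁ S T (k + 1) (cc (k + 1)) (gM R (w (k + 1)) (A (k + 1)) k)
        - GW N R₁ S T (k + 1) (cc (k + 1)) (gE R D (w (k + 1)) (A (k + 1)) k) := by
    intro k
    have h1 := GW_add N R₁ S T (k + 1) (cc (k + 1))
      (fun n n' m => 1 / 2 * gM R (w (k + 1)) (A (k + 1)) k n n' m
        - gE R D (w (k + 1)) (A (k + 1)) k n n' m)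
      (gE R D (w (k + 1)) (A (k + 1)) k)
    have h2 := GW_mul N R₁ S T (k + 1) (cc (k + 1)) (1 / 2) (gM R (w (k + 1)) (A (k + 1)) k)
    simp only [sub_add_cancel] at h1
    rw [h2] at h1
    linarith
  simp only [e1] at key
  rw [sum_sub_distrib, ← mul_sum] at key
  have e2 : ∀ k, WW N (k + 1) (fun _ => (0 : ℝ)) = 0 := by
    intro k
    unfold WW
    simp
  simp only [e2, add_zero] at key
  linarith

end

end Vale.Agent.P141.H43
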