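import Vale.Agent.P141.H43.RpZ
import Vale.Agent.P141.H389.RealAC
import Vale.Agent.P141.H258.Wt
import Vale.Agent.P141.H297.StkX1
import Vale.Agent.P141.H581.StageX
import Vale.Agent.P141.H747.StageM
import Vale.Agent.P141.H170.XSumP

/-!
# P141, line (A), flow part: the pair sums of the stage in the letters of the pair theorems

Families `A k z y`, `b k x y`, `C k z x`, slot `Q k n x` (constant on the cells `n` of `z`).

* `SCq` : the stack `(ε C ; Q C)`; `SBq` : `(0 ; b)`; `WQ` : the weight `ε² + Qᵀ Q`;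
* `QW_stack` : hub `x3`, the Gram matrix of the stack is `QW` of `C` with the weight `WQ`;
* `seam_z` : `RP` of the stack against `A` as plane sums of `H389.gAC`;
* `seam_z_sat`, `seam_x`, `seam_x_sat`, `seam_y` : the other pair sums;
* `wf_Q`, `mvo_Q` : an exact symmetric martingale as weight field and as moving slot;
* `RX_z`, `RX_z_sat`, `RX_x`, `RX_x_sat`, `RX_y` : the sums over `x0` in the letters of
  `H747.StageM`; `RX_z_of`, `RX_x_of` : from bounds at every `x0`.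
-/

namespace Vale.Agent.P141.H43.Seam

open Finset Matrix Vale.Agent.P075 Vale.Agent.P141.PL
open Vale.Agent.P141.PL.H588 (hd Pl)
open Vale.Agent.P141.PL.H804 (bx3 bl)
open Vale.Agent.P141.H958 (lbs)
open Vale.Agent.P141.H609 (RP NM)
open Vale.Agent.P141.H103 (GW QW PA)
open Vale.Agent.P141.H747 (sL gA gB gC)
open Vale.Agent.P141.H585.PairCh (phs)
open Vale.Agent.P141.H389 (XW XWs PAs gAC)
open Vale.Agent.P141.H297.Ch (Py sl st WO rr)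
open Vale.Agent.P141.H43.RpX

noncomputable section

variable {κ : Type} [Fintype κ] [DecidableEq κ]

/-! ### The stack -/

/-- the stack `(ε C ; Q C)` -/
def SCq (ε : ℝ) (Q : ℕ → ℤ → ℤ → Matrix κ κ ℝ) (C : ℕ → ℤ → ℤ → κ → ℝ) (k : ℕ) (z x : ℤ) :
    κ ⊕ κ → ℝ := Sum.elim (ε • C k z x) (Q k (ix k z) x *ᵥ C k z x)

/-- the partner `(0 ; b)` -/
def SBq (b : ℕ → ℤ → ℤ → κ → ℝ) (k : ℕ) (x y : ℤ) : κ ⊕ κ → ℝ := Sum.elim (0 : κ → ℝ) (b k x y)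

/-- the weight `ε² + Qᵀ Q` -/
def WQ (ε : ℝ) (Q : ℕ → ℤ → ℤ → Matrix κ κ ℝ) (x : ℤ) (k : ℕ) (m : ℤ) : Matrix κ κ ℝ :=
  ε ^ 2 • (1 : Matrix κ κ ℝ) + (Q k m x)ᵀ * Q k m x

theorem WQ_wt {ε : ℝ} {Q : ℕ → ℤ → ℤ → Matrix κ κ ℝ} (h : ∀ k m x, (Q k m x)ᵀ = Q k m x)
    (x : ℤ) (k : ℕ) (m : ℤ) : WQ ε Q x k m = H258.wt (ε ^ 2) (Q k m x) := by
  unfold WQ H258.wt
  rw [h]

theorem WQ_form (ε : ℝ) (Q : ℕ → ℤ → ℤ → Matrix κ κ ℝ) (x : ℤ) (k : ℕ) (m : ℤ) (u v : κ → ℝ) :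
    (Sum.elim (ε • u) (Q k m x *ᵥ u) : κ ⊕ κ → ℝ) ⬝ᵥ Sum.elim (ε • v) (Q k m x *ᵥ v) =
      u ⬝ᵥ WQ ε Q x k m *ᵥ v := by
  unfold WQ
  rw [sumElim_dotProduct_sumElim, add_mulVec, dotProduct_add, smul_mulVec, one_mulVec,
    dotProduct_smul, smul_dotProduct, dotProduct_smul, ← mulVec_mulVec, dotProduct_mulVec u,
    vecMul_transpose]
  simp only [smul_eq_mul]
  ring

/-- **Hub `x3`: the Gram matrix of the stack.** -/
theorem QW_stack (ε : ℝ) (Q : ℕ → ℤ → ℤ → Matrix κ κ ℝ) (C : ℕ → ℤ → ℤ → κ → ℝ) (a k : ℕ)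
    (n m : ℤ) : QW a k (fun x z => SCq ε Q C k z x) (fun _ => 1) n m =
      QW a k (fun x z => C k z x) (fun x => WQ ε Q x k m) n m := by
  funext i j
  unfold H103.QW
  congr 1
  refine sum_congr rfl fun x _ => ?_
  have hi : ix k (2 ^ k * m + val k i) = m := (mem_iv.1 (H297.Ch.val_mem k m i))
  have hj : ix k (2 ^ k * m + val k j) = m := (mem_iv.1 (H297.Ch.val_mem k m j))
  beta_reduce
  unfold SCq
  rw [one_mulVec, hi, hj]
  exact WQ_form ε Q x k m _ _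

/-! ### Hub `x3` -/

variable {L : ℕ} {e : κ ⊕ κ → ℤ}

omit [DecidableEq κ] in
theorem gAC_hd (A : ℤ → ℤ → ℝ) (c : ℤ → ℤ → κ → ℝ) (W : ℤ → ℕ → ℤ → Matrix κ κ ℝ) (s : ℝ)
    (k a a' : ℕ) (n n' m : ℤ) :
    gAC A c W s k a a' n n' m = (PA A (k + 1) a n m * (hd (k + 1) *
      phs s (QW a' (k + 1) c (fun x => W x (k + 1) m) n' m) * hd (k + 1))).trace := by
  unfold H389.gAC H389.PAs H389.XWs H389.XW
  rfl

omit [DecidableEq κ] in
theorem gSS_hd (A : ℤ → ℤ → ℝ) (c : ℤ → ℤ → κ → ℝ) (W : ℤ → ℕ → ℤ → Matrix κ κ ℝ) (s s' : ℝ)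
    (k a a' : ℕ) (n n' m : ℤ) :
    (phs s' (PAs A k a n m) * (rad (Ix k) * phs s (XWs c W k a' n' m) * rad (Ix k))).trace =
      (phs s' (PA A (k + 1) a n m) * (hd (k + 1) *
      phs s (QW a' (k + 1) c (fun x => W x (k + 1) m) n' m) * hd (k + 1))).trace := by
  unfold H389.PAs H389.XWs H389.XW
  rfl

/-- **Hub `x3`, raw partner `A`**: the right side in the letters of `H389.RealAC`. -/
theorem seam_z (he : Function.Injective e) (hm : ∀ i, e i ∈ lbs L) {N : ℕ} {R : Pt} {c : ℕ → ℤ}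
    {s : ℕ → Finset Pt} (hs : ∀ k ∈ Icc 1 N, s k ⊆ bx3 N R k (c k)) (ε : ℝ)
    (Q : ℕ → ℤ → ℤ → Matrix κ κ ℝ) (A : ℕ → ℤ → ℤ → ℝ) (C : ℕ → ℤ → ℤ → κ → ℝ) (x : ℝ) {y : ℝ}
    (hy : 0 < y) :
    RP (N + L) (sL L s) x y (fun k m => (bl k (gC L e (SCq ε Q C) k) m.1 m.2.2)ᵀ)
      (fun k m => bl k (gA L A k) m.1 m.2.1) ≤
    4 ^ L * ∑ k ∈ Ico 0 N, GW N R.2.1 R.1 R.2.2 (k + 1) (c (k + 1))
      (gAC (fun y z => A (k + 1) z y) (fun x z => C (k + 1) z x) (WQ ε Q) (x ^ 2) k (k + 1)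
        (k + 1)) := by
  have h := RP_z_raw he hm hs A (SCq ε Q C) x hy
  have e1 : ∀ k, (fun n n' m => (PA (fun y z => A (k + 1) z y) (k + 1) (k + 1) n m *
      (hd (k + 1) * phs (x ^ 2) (QW (k + 1) (k + 1) (fun x z => SCq ε Q C (k + 1) z x)
        (fun _ => 1) n' m) * hd (k + 1))).trace) =
      gAC (fun y z => A (k + 1) z y) (fun x z => C (k + 1) z x) (WQ ε Q) (x ^ 2) k (k + 1)
        (k + 1) := by
    intro k
    funext n n' m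
    rw [gAC_hd, QW_stack]
  simp only [e1] at h
  exact h

/-- **Hub `x3`, both saturated.** -/
theorem seam_z_sat (he : Function.Injective e) (hm : ∀ i, e i ∈ lbs L) {N : ℕ} {R : Pt}
    {c : ℕ → ℤ} {s : ℕ → Finset Pt} (hs : ∀ k ∈ Icc 1 N, s k ⊆ bx3 N R k (c k)) (ε : ℝ)
    (Q : ℕ → ℤ → ℤ → Matrix κ κ ℝ) (A : ℕ → ℤ → ℤ → ℝ) (C : ℕ → ℤ → ℤ → κ → ℝ) (x y : ℝ) :
    RP (N + L) (sL L s) x y (fun k m => (bl k (gC L e (SCq ε Q C) k) m.1 m.2.2)ᵀ)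
      (fun k m => bl k (gA L A k) m.1 m.2.1) ≤
    4 ^ L * ∑ k ∈ Ico 0 N, GW N R.2.1 R.1 R.2.2 (k + 1) (c (k + 1)) (fun n n' m =>
      (phs (y ^ 2) (PAs (fun y z => A (k + 1) z y) k (k + 1) n m) * (rad (Ix k) *
        phs (x ^ 2) (XWs (fun x z => C (k + 1) z x) (WQ ε Q) k (k + 1) n' m) *
          rad (Ix k))).trace) := by
  have h := RP_z' he hm hs A (SCq ε Q C) x y
  have e1 : ∀ k, (fun n n' m => (phs (y ^ 2) (PA (fun y z => A (k + 1) z y) (k + 1) (k + 1) n m) *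
      (hd (k + 1) * phs (x ^ 2) (QW (k + 1) (k + 1) (fun x z => SCq ε Q C (k + 1) z x)
        (fun _ => 1) n' m) * hd (k + 1))).trace) =
      fun n n' m => (phs (y ^ 2) (PAs (fun y z => A (k + 1) z y) k (k + 1) n m) * (rad (Ix k) *
        phs (x ^ 2) (XWs (fun x z => C (k + 1) z x) (WQ ε Q) k (k + 1) n' m) *
          rad (Ix k))).trace := by
    intro k
    funext n n' m
    rw [gSS_hd, QW_stack]
  simp only [e1] at h
  exact h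

/-! ### Hub `x1` -/

/-- **Hub `x1`, raw partner `(0 ; b)`**: the right side in the letters of `H585.PairR`. -/
theorem seam_x (he : Function.Injective e) (hm : ∀ i, e i ∈ lbs L) {N : ℕ} {R : Pt} {c : ℕ → ℤ}
    {s : ℕ → Finset Pt} (hs : ∀ k ∈ Icc 1 N, s k ⊆ bx3 N R k (c k)) (ε : ℝ)
    (Q : ℕ → ℤ → ℤ → Matrix κ κ ℝ) (b : ℕ → ℤ → ℤ → κ → ℝ) (C : ℕ → ℤ → ℤ → κ → ℝ) {x : ℝ}
    (hx : 0 < x) (y : ℝ) :
    RP (N + L) (sL L s) x y (fun k m => bl k (gB L e (SBq b) k) m.2.1 m.2.2)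
      (fun k m => (bl k (gC L e (SCq ε Q C) k) m.1 m.2.2)ᵀ) ≤
    4 ^ L * ∑ k ∈ Ico 0 N, GW N R.2.1 R.2.2 R.1 (k + 1) (c (k + 1)) (fun n n' m =>
      (Py (sl (k + 1) m (SBq b (k + 1))) (k + 1) n *
        (rr k (κ ⊕ κ) * phs (y ^ 2) (WO ε (fun k x n => Q k n x) (fun x z => C (k + 1) z x)
          (k + 1) (k + 1) n' m) * rr k (κ ⊕ κ))).trace) :=
  RP_x_raw he hm hs (SBq b) (SCq ε Q C) hx y

/-- **Hub `x1`, both saturated.** -/
theorem seam_x_sat (he : Function.Injective e) (hm : ∀ i, e i ∈ lbs L) {N : ℕ} {R : Pt}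
    {c : ℕ → ℤ} {s : ℕ → Finset Pt} (hs : ∀ k ∈ Icc 1 N, s k ⊆ bx3 N R k (c k)) (ε : ℝ)
    (Q : ℕ → ℤ → ℤ → Matrix κ κ ℝ) (b : ℕ → ℤ → ℤ → κ → ℝ) (C : ℕ → ℤ → ℤ → κ → ℝ) (x y : ℝ) :
    RP (N + L) (sL L s) x y (fun k m => bl k (gB L e (SBq b) k) m.2.1 m.2.2)
      (fun k m => (bl k (gC L e (SCq ε Q C) k) m.1 m.2.2)ᵀ) ≤
    4 ^ L * ∑ k ∈ Ico 0 N, GW N R.2.1 R.2.2 R.1 (k + 1) (c (k + 1)) (fun n n' m =>
      (phs (x ^ 2) (Py (sl (k + 1) m (SBq b (k + 1))) (k + 1) n) *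
        (rr k (κ ⊕ κ) * phs (y ^ 2) (WO ε (fun k x n => Q k n x) (fun x z => C (k + 1) z x)
          (k + 1) (k + 1) n' m) * rr k (κ ⊕ κ))).trace) :=
  RP_x' he hm hs (SBq b) (SCq ε Q C) x y

/-! ### The slot as a martingale -/

section mart

variable {Q : ℕ → ℤ → ℤ → Matrix κ κ ℝ}

/-- half difference of the slot on the two halves of a cell of scale `k` -/
def DQ (Q : ℕ → ℤ → ℤ → Matrix κ κ ℝ) (k : ℕ) (n x : ℤ) : Matrix κ κ ℝ :=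
  (1 / 2 : ℝ) • (Q (k - 1) (2 * n) x - Q (k - 1) (2 * n + 1) x)

/-- first order move of the weight -/
def MQ (Q : ℕ → ℤ → ℤ → Matrix κ κ ℝ) (x : ℤ) (k : ℕ) (m : ℤ) : Matrix κ κ ℝ :=
  Q k m x * DQ Q k m x + DQ Q k m x * Q k m x

/-- second order move of the weight -/
def NQ (Q : ℕ → ℤ → ℤ → Matrix κ κ ℝ) (x : ℤ) (k : ℕ) (m : ℤ) : Matrix κ κ ℝ :=
  DQ Q k m x * DQ Q k m x

omit [Fintype κ] [DecidableEq κ] in
theorem Q_left (h : ∀ k n x, Q (k + 1) n x = (1 / 2 : ℝ) • (Q k (2 * n) x + Q k (2 * n + 1) x))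
    (k : ℕ) (n x : ℤ) : Q k (2 * n) x = Q (k + 1) n x + DQ Q (k + 1) n x := by
  unfold DQ
  rw [h, Nat.add_sub_cancel]
  module

omit [Fintype κ] [DecidableEq κ] in
theorem Q_right (h : ∀ k n x, Q (k + 1) n x = (1 / 2 : ℝ) • (Q k (2 * n) x + Q k (2 * n + 1) x))
    (k : ℕ) (n x : ℤ) : Q k (2 * n + 1) x = Q (k + 1) n x - DQ Q (k + 1) n x := by
  unfold DQ
  rw [h, Nat.add_sub_cancel]
  module

omit [Fintype κ] [DecidableEq κ] in
theorem DQ_symm (hs : ∀ k n x, (Q k n x)ᵀ = Q k n x) (k : ℕ) (n x : ℤ) :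
    (DQ Q k n x)ᵀ = DQ Q k n x := by
  unfold DQ
  rw [transpose_smul, transpose_sub, hs, hs]

/-- **The weight field of the stack.** -/
theorem wf_Q (N : ℕ) {ε : ℝ} (hε : ε ≠ 0) (hs : ∀ k n x, (Q k n x)ᵀ = Q k n x)
    (h : ∀ k n x, Q (k + 1) n x = (1 / 2 : ℝ) • (Q k (2 * n) x + Q k (2 * n + 1) x)) :
    H389.Wf N (WQ ε Q) (NQ Q) (MQ Q) (fun _ _ _ => 0) where
  pd x k m := by
    unfold WQ
    refine PosDef.add_posSemidef (PosDef.smul PosDef.one (by positivity)) ?_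
    have := posSemidef_conjTranspose_mul_self (Q k m x)
    rwa [conjTranspose_eq_transpose_of_trivial] at this
  sN x k m := by
    unfold NQ
    rw [transpose_mul, DQ_symm hs]
  sM x k m := by
    unfold MQ
    rw [transpose_add, transpose_mul, transpose_mul, DQ_symm hs, hs, add_comm]
  pNm _ _ _ := PosSemidef.zero
  pN x k m := by
    rw [add_zero]
    unfold NQ
    have := posSemidef_conjTranspose_mul_self (DQ Q k m x)
    rwa [conjTranspose_eq_transpose_of_trivial, DQ_symm hs] at this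
  left x k m _ := by
    unfold WQ NQ MQ
    rw [hs, hs, Q_left h]
    noncomm_ring
  right x k m _ := by
    unfold WQ NQ MQ
    rw [hs, hs, Q_right h]
    noncomm_ring

omit [Fintype κ] [DecidableEq κ] in
/-- the same as a moving slot of hub `x1` -/
theorem mvo_Q (h : ∀ k n x, Q (k + 1) n x = (1 / 2 : ℝ) • (Q k (2 * n) x + Q k (2 * n + 1) x))
    (a : ℕ) : H297.Ch.Mvo (fun x n => Q a n x) (fun x n => Q (a + 1) n x)
      (fun x n => DQ Q (a + 1) n x) := fun x n => ⟨Q_left h a n x, Q_right h a n x⟩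

end mart

/-! ### The sums over `x0` -/

section grid

open Vale.Agent.P141.H747 (RgS MSb MSc MA MB MC shA shB shC sG)
open Vale.Agent.P141.H677.Sk (FamA FamV Slt)
open Vale.Agent.P141.H795 (ys)
open Vale.Agent.P141.H581 (RX)

variable (K : ℕ) (M : Pt) (R : Slt κ) (A : FamA) (b C : FamV κ)

omit [DecidableEq κ] in
/-- the sum over `x0` of one bound -/
theorem RX_of_le {X : Type*} {I : Finset X} {N : ℕ} {s : X → ℕ → Finset Pt} {x y : ℝ}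
    {F H : X → NM} {g : X → ℝ} (h : ∀ i ∈ I, RP N (s i) x y (F i) (H i) ≤ 4 ^ L * g i) :
    RX I N s x y F H ≤ 4 ^ L * ∑ i ∈ I, g i := by
  unfold H581.RX
  rw [mul_sum]
  exact sum_le_sum h

/-- **Hub `x3`, raw partner.** -/
theorem RX_z (he : Function.Injective e) (hm : ∀ i, e i ∈ lbs L) (ε : ℝ) (s : Pt) (t j : ℤ)
    (q : Pt) (x : ℝ) {y : ℝ} (hy : 0 < y) :
    RX (iv K t) (K + L) (fun x0 => sL L (sG K M (-x0) s j q)) x y (MC K M R C L e ε s)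
      (MA K M A L s) ≤
    4 ^ L * ∑ x0 ∈ iv K t, ∑ k ∈ Ico 0 K,
      GW K (M.2.1 - q.2.1) (M.2.2 - q.2.2) (M.1 - q.1) (k + 1) (ix (k + 1) (ys (-x0) s) - j)
        (gAC (fun y z => shA K M s (A x0) (k + 1) z y) (fun x z => shC K M s (C x0) (k + 1) z x)
          (WQ ε (RgS R s.2.2 s.1 x0)) (x ^ 2) k (k + 1) (k + 1)) :=
  RX_of_le fun x0 _ => seam_z he hm (R := H677.rv (M - q))
    (c := fun k => ix k (ys (-x0) s) - j) (H747.sG_sub K M (-x0) s j q) ε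
    (RgS R s.2.2 s.1 x0) (shA K M s (A x0)) (shC K M s (C x0)) x hy

/-- **Hub `x3`, both saturated.** -/
theorem RX_z_sat (he : Function.Injective e) (hm : ∀ i, e i ∈ lbs L) (ε : ℝ) (s : Pt) (t j : ℤ)
    (q : Pt) (x y : ℝ) :
    RX (iv K t) (K + L) (fun x0 => sL L (sG K M (-x0) s j q)) x y (MC K M R C L e ε s)
      (MA K M A L s) ≤
    4 ^ L * ∑ x0 ∈ iv K t, ∑ k ∈ Ico 0 K,
      GW K (M.2.1 - q.2.1) (M.2.2 - q.2.2) (M.1 - q.1) (k + 1) (ix (k + 1) (ys (-x0) s) - j)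
        (fun n n' m => (phs (y ^ 2) (PAs (fun y z => shA K M s (A x0) (k + 1) z y) k (k + 1) n m) *
          (rad (Ix k) * phs (x ^ 2) (XWs (fun x z => shC K M s (C x0) (k + 1) z x)
            (WQ ε (RgS R s.2.2 s.1 x0)) k (k + 1) n' m) * rad (Ix k))).trace) :=
  RX_of_le fun x0 _ => seam_z_sat he hm (R := H677.rv (M - q))
    (c := fun k => ix k (ys (-x0) s) - j) (H747.sG_sub K M (-x0) s j q) ε
    (RgS R s.2.2 s.1 x0) (shA K M s (A x0)) (shC K M s (C x0)) x y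

/-- **Hub `x1`, raw partner.** -/
theorem RX_x (he : Function.Injective e) (hm : ∀ i, e i ∈ lbs L) (ε : ℝ) (s : Pt) (t j : ℤ)
    (q : Pt) {x : ℝ} (hx : 0 < x) (y : ℝ) :
    RX (iv K t) (K + L) (fun x0 => sL L (sG K M (-x0) s j q)) x y (MB K M b L e s)
      (MC K M R C L e ε s) ≤
    4 ^ L * ∑ x0 ∈ iv K t, ∑ k ∈ Ico 0 K,
      GW K (M.2.1 - q.2.1) (M.1 - q.1) (M.2.2 - q.2.2) (k + 1) (ix (k + 1) (ys (-x0) s) - j)
        (fun n n' m => (Py (sl (k + 1) m (MSb K M b s x0 (k + 1))) (k + 1) n *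
          (rr k (κ ⊕ κ) * phs (y ^ 2) (WO ε (fun k x n => RgS R s.2.2 s.1 x0 k n x)
            (fun x z => shC K M s (C x0) (k + 1) z x) (k + 1) (k + 1) n' m) *
              rr k (κ ⊕ κ))).trace) :=
  RX_of_le fun x0 _ => seam_x he hm (R := H677.rv (M - q))
    (c := fun k => ix k (ys (-x0) s) - j) (H747.sG_sub K M (-x0) s j q) ε
    (RgS R s.2.2 s.1 x0) (shB K M s (b x0)) (shC K M s (C x0)) hx y

/-- **Hub `x1`, both saturated.** -/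
theorem RX_x_sat (he : Function.Injective e) (hm : ∀ i, e i ∈ lbs L) (ε : ℝ) (s : Pt) (t j : ℤ)
    (q : Pt) (x y : ℝ) :
    RX (iv K t) (K + L) (fun x0 => sL L (sG K M (-x0) s j q)) x y (MB K M b L e s)
      (MC K M R C L e ε s) ≤
    4 ^ L * ∑ x0 ∈ iv K t, ∑ k ∈ Ico 0 K,
      GW K (M.2.1 - q.2.1) (M.1 - q.1) (M.2.2 - q.2.2) (k + 1) (ix (k + 1) (ys (-x0) s) - j)
        (fun n n' m => (phs (x ^ 2) (Py (sl (k + 1) m (MSb K M b s x0 (k + 1))) (k + 1) n) *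
          (rr k (κ ⊕ κ) * phs (y ^ 2) (WO ε (fun k x n => RgS R s.2.2 s.1 x0 k n x)
            (fun x z => shC K M s (C x0) (k + 1) z x) (k + 1) (k + 1) n' m) *
              rr k (κ ⊕ κ))).trace) :=
  RX_of_le fun x0 _ => seam_x_sat he hm (R := H677.rv (M - q))
    (c := fun k => ix k (ys (-x0) s) - j) (H747.sG_sub K M (-x0) s j q) ε
    (RgS R s.2.2 s.1 x0) (shB K M s (b x0)) (shC K M s (C x0)) x y

/-- **Hub `x2`, both saturated.** -/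
theorem RX_y (he : Function.Injective e) (hm : ∀ i, e i ∈ lbs L) (s : Pt) (t j : ℤ)
    (q : Pt) (x y : ℝ) :
    RX (iv K t) (K + L) (fun x0 => sL L (sG K M (-x0) s j q)) x y (MA K M A L s)
      (MB K M b L e s) ≤
    4 ^ L * ∑ x0 ∈ iv K t, ∑ k ∈ Icc 1 K,
      GW K (M.2.2 - q.2.2) (M.2.1 - q.2.1) (M.1 - q.1) k (ix k (ys (-x0) s) - j)
        (gy x y (shA K M s (A x0)) (MSb K M b s x0) k) :=
  RX_of_le fun x0 _ => RP_y he hm (R := H677.rv (M - q))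
    (c := fun k => ix k (ys (-x0) s) - j) (H747.sG_sub K M (-x0) s j q)
    (shA K M s (A x0)) (MSb K M b s x0) x y

/-- the planes are admissible -/
theorem pl_grid (x0 : ℤ) (s : Pt) {j : ℤ} (hj : j ∈ Icc (0 : ℤ) 2) :
    Pl fun k => ix k (ys (-x0) s) - j := H795.Pl_grid (-x0) s hj

/-- **Sum over the family of pair bounds.** -/
theorem sum_pairB {X : Type*} {I : Finset X} {g a₁ b₁ a₂ b₂ l : X → ℝ}
    {c₁ c₂ A₁ B₁ A₂ B₂ D Z : ℝ} (h1 : 0 ≤ c₁) (h2 : 0 ≤ c₂) (ha1 : ∀ i ∈ I, 0 ≤ a₁ i)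
    (hb1 : ∀ i ∈ I, 0 ≤ b₁ i) (ha2 : ∀ i ∈ I, 0 ≤ a₂ i) (hb2 : ∀ i ∈ I, 0 ≤ b₂ i)
    (h : ∀ i ∈ I, g i ≤ c₁ * √(a₁ i * b₁ i) + c₂ * √(a₂ i * b₂ i) + l i)
    (sa1 : ∑ i ∈ I, a₁ i ≤ A₁) (sb1 : ∑ i ∈ I, b₁ i ≤ B₁) (sa2 : ∑ i ∈ I, a₂ i ≤ A₂)
    (sb2 : ∑ i ∈ I, b₂ i ≤ B₂) (sl : ∑ i ∈ I, l i ≤ D)
    (hZ : c₁ * √(A₁ * B₁) + c₂ * √(A₂ * B₂) + D ≤ Z) : ∑ i ∈ I, g i ≤ Z := by
  have k1 := H170.XSumP.sum_pair I (G := fun i => c₁ * √(a₁ i * b₁ i)) (l := fun _ => 0) (L := 0) h1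
    ha1 hb1 (fun i _ => by rw [add_zero]) sa1 sb1 (by simp)
  have k2 := H170.XSumP.sum_pair I (G := fun i => c₂ * √(a₂ i * b₂ i)) (l := fun _ => 0) (L := 0) h2
    ha2 hb2 (fun i _ => by rw [add_zero]) sa2 sb2 (by simp)
  refine (sum_le_sum h).trans ?_
  rw [sum_add_distrib, sum_add_distrib]
  linarith

end grid

end

end Vale.Agent.P141.H43.Seam
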