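import Vale.Agent.P141.H536.LightQ
import Vale.Agent.P141.H747.GridF
import Vale.Agent.P141.H297.StkO

/-!
# P141, line (A): the pair sum `RP` at the hub `x1` as plane sums

`FB`, `FC` the labelled matrices of `H747` (labels = last `L` digits). `RP (N + L) (sL L s) x y FB FC`
is at most `4 ^ L` times the plane sums of the saturated pair of the Gram matrices on
`Ix k × κ` (letters `Py (sl k m ..)` of `H297`, sign `hL κ k`, `= rr` for `k + 1`).
-/

namespace Vale.Agent.P141.H43.RpX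

open Finset Matrix Vale.Agent.P075 Vale.Agent.P141.PL
open Vale.Agent.P141.PL.H588 (hd Pl)
open Vale.Agent.P141.PL.H804 (bx3 bl M2)
open Vale.Agent.P141.H958 (lbs encR)
open Vale.Agent.P141.H609 (RP NM)
open Vale.Agent.P141.H103 (GW)
open Vale.Agent.P141.H338 (cu lf)
open Vale.Agent.P141.H536 (TE TE_iso mx gram_enc phi_TE hL hL_symm hd_TE)
open Vale.Agent.P141.H747 (sL gB gC sum_sL)
open Vale.Agent.P141.H297.Ch (Py sl Py_PSD rr eI rx)
open Vale.Agent.P141.H585.PairCh (phs)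

noncomputable section

variable {κ : Type*} [Fintype κ] [DecidableEq κ] {L : ℕ} {e : κ → ℤ}

omit [Fintype κ] [DecidableEq κ] in
/-- the Gram matrix of the middle cell in the letters `Py` -/
theorem gram_Py (k : ℕ) (w : ℤ → ℤ → κ → ℝ) (n m : ℤ) :
    (mx k (fun q y x => w x y q) n m)ᵀ * mx k (fun q y x => w x y q) n m =
      (4 ^ k : ℝ) • Py (sl k m w) k n := by
  ext p q
  rw [Matrix.mul_apply, Matrix.smul_apply, smul_eq_mul]
  unfold Py Vale.Agent.P141.H43.av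
  have h1 : ∑ y ∈ iv k n, sl k m w y p * sl k m w y q
      = ((2 : ℝ) ^ k)⁻¹ * ∑ j : Ix k, w (2 ^ k * m + val k p.1) (2 ^ k * n + val k j) p.2
        * w (2 ^ k * m + val k q.1) (2 ^ k * n + val k j) q.2 := by
    rw [PL.H588.sum_iv, mul_sum]
    refine sum_congr rfl fun j _ => ?_
    unfold sl
    have h2 := H297.Ch.sqrt_mul_self' k
    linear_combination (w (2 ^ k * m + val k p.1) (2 ^ k * n + val k j) p.2
        * w (2 ^ k * m + val k q.1) (2 ^ k * n + val k j) q.2) * h2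
  rw [h1]
  have e4 : (4 : ℝ) ^ k = 2 ^ k * 2 ^ k := by rw [← mul_pow]; norm_num
  rw [e4]
  field_simp
  refine sum_congr rfl fun j _ => ?_
  rfl

/-- **The Gram matrix on the fine grid.** -/
theorem gram_fine (k : ℕ) (w : ℤ → ℤ → κ → ℝ) (n m : ℤ) (x : ℝ) :
    ((x ^ 2)⁻¹ * (4 ^ (k + L))⁻¹) • ((bl (k + L) (encR L (lf e fun q y x => w x y q)) n m)ᵀ *
      bl (k + L) (encR L (lf e fun q y x => w x y q)) n m) =
      TE L e k * ((x ^ 2)⁻¹ • Py (sl k m w) k n) * (TE L e k)ᵀ := by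
  rw [gram_enc, gram_Py, smul_smul]
  simp only [Matrix.mul_smul, Matrix.smul_mul, smul_smul]
  congr 1
  rw [pow_add]
  field_simp

theorem M2_lab (he : Function.Injective e) (hm : ∀ i, e i ∈ lbs L) {k : ℕ} (hk : 1 ≤ k)
    (f g : ℤ → ℤ → κ → ℝ) (n n' m : ℤ) (x y : ℝ) :
    M2 (hd (k + L)) ((x ^ 2)⁻¹ * (4 ^ (k + L))⁻¹) ((y ^ 2)⁻¹ * (4 ^ (k + L))⁻¹)
      (bl (k + L) (encR L (lf e fun q y x => f x y q)) n m)
      (bl (k + L) (encR L (lf e fun q z x => g x z q)) n' m)ᵀ =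
    (phi ((x ^ 2)⁻¹ • Py (sl k m f) k n) *
      (hL κ k * phi ((y ^ 2)⁻¹ • Py (sl k m g) k n') * hL κ k)).trace := by
  unfold PL.H804.M2 gramC gramR
  rw [transpose_transpose, gram_fine, gram_fine,
    phi_TE he hm k ((Py_PSD _ _ _).smul (by positivity)),
    phi_TE he hm k ((Py_PSD _ _ _).smul (by positivity))]
  set P := phi ((x ^ 2)⁻¹ • Py (sl k m f) k n)
  set Q := phi ((y ^ 2)⁻¹ • Py (sl k m g) k n')
  have h1 : hd (k + L) * (TE L e k * Q * (TE L e k)ᵀ) * hd (k + L) =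
      TE L e k * (hL κ k * Q * hL κ k) * (TE L e k)ᵀ := by
    have h2 : (TE L e k)ᵀ * hd (k + L) = hL κ k * (TE L e k)ᵀ := by
      have h3 := congrArg Matrix.transpose (hd_TE (e := e) (L := L) hk)
      rwa [transpose_mul, transpose_mul, PL.H804.hd_symm, hL_symm] at h3
    calc hd (k + L) * (TE L e k * Q * (TE L e k)ᵀ) * hd (k + L)
        = (hd (k + L) * TE L e k) * Q * ((TE L e k)ᵀ * hd (k + L)) := by
          simp only [Matrix.mul_assoc]
      _ = _ := by rw [hd_TE hk, h2]; simp only [Matrix.mul_assoc]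
  rw [h1]
  calc (TE L e k * P * (TE L e k)ᵀ * (TE L e k * (hL κ k * Q * hL κ k) * (TE L e k)ᵀ)).trace
      = (TE L e k * (P * ((TE L e k)ᵀ * TE L e k) * (hL κ k * Q * hL κ k)) * (TE L e k)ᵀ).trace := by
        simp only [Matrix.mul_assoc]
    _ = (TE L e k * (P * (hL κ k * Q * hL κ k)) * (TE L e k)ᵀ).trace := by
        rw [TE_iso he hm, Matrix.mul_one]
    _ = ((TE L e k)ᵀ * (TE L e k * (P * (hL κ k * Q * hL κ k)))).trace := trace_mul_comm _ _
    _ = _ := by rw [← Matrix.mul_assoc, TE_iso he hm, Matrix.one_mul]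

/-- saturation is at most the matrix -/
theorem phs_le {n : Type*} [Fintype n] [DecidableEq n] {s : ℝ} (hs : 0 < s) {X : Matrix n n ℝ}
    (hX : X.PosSemidef) : (X - phs s X).PosSemidef := by
  have h := (PL.H804.phi_le_self (hX.smul (inv_pos.2 hs).le)).smul hs.le
  rw [smul_sub, smul_smul, mul_inv_cancel₀ hs.ne', one_smul] at h
  exact h

/-- the saturated pair at a node -/
def gx (x y : ℝ) (b C : ℕ → ℤ → ℤ → κ → ℝ) (k : ℕ) (n n' m : ℤ) : ℝ :=
  (phs (x ^ 2) (Py (sl k m (b k)) k n) *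
    (hL κ k * phs (y ^ 2) (Py (sl k m fun x z => C k z x) k n') * hL κ k)).trace

theorem gx_nonneg (x y : ℝ) (b C : ℕ → ℤ → ℤ → κ → ℝ) (k : ℕ) (n n' m : ℤ) :
    0 ≤ gx x y b C k n n' m := by
  unfold gx phs
  refine trace_mul_nonneg ?_ (psd_conj_symm ?_ (hL_symm k))
  · exact (phi_psd ((Py_PSD _ _ _).smul (by positivity))).smul (by positivity)
  · exact (phi_psd ((Py_PSD _ _ _).smul (by positivity))).smul (by positivity)

/-- **Hub `x1`: the pair sum `RP` of `b` and `C` as plane sums.** -/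
theorem RP_x (he : Function.Injective e) (hm : ∀ i, e i ∈ lbs L) {N : ℕ} {R : Pt} {c : ℕ → ℤ}
    {s : ℕ → Finset Pt} (hs : ∀ k ∈ Icc 1 N, s k ⊆ bx3 N R k (c k))
    (b C : ℕ → ℤ → ℤ → κ → ℝ) (x y : ℝ) :
    RP (N + L) (sL L s) x y (fun k m => bl k (gB L e b k) m.2.1 m.2.2)
      (fun k m => (bl k (gC L e C k) m.1 m.2.2)ᵀ) ≤
    4 ^ L * ∑ k ∈ Icc 1 N, GW N R.2.1 R.2.2 R.1 k (c k) (gx x y b C k) := by
  unfold H609.RP
  rw [sum_sL L N s fun k m => x ^ 2 * y ^ 2 * (4 ^ k * M2 (hd k) ((x ^ 2)⁻¹ * (4 ^ k)⁻¹)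
    ((y ^ 2)⁻¹ * (4 ^ k)⁻¹) (bl k (gB L e b k) m.2.1 m.2.2) (bl k (gC L e C k) m.1 m.2.2)ᵀ), mul_sum]
  refine sum_le_sum fun k hk => ?_
  have hk1 := (mem_Icc.1 hk).1
  have hnode : ∀ m : Pt, x ^ 2 * y ^ 2 * (4 ^ (k + L) * M2 (hd (k + L))
      ((x ^ 2)⁻¹ * (4 ^ (k + L))⁻¹) ((y ^ 2)⁻¹ * (4 ^ (k + L))⁻¹)
      (bl (k + L) (gB L e b (k + L)) m.2.1 m.2.2) (bl (k + L) (gC L e C (k + L)) m.1 m.2.2)ᵀ) =
      4 ^ L * (4 ^ k * gx x y b C k m.2.1 m.1 m.2.2) := by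
    intro m
    have e1 : gB L e b (k + L) = encR L (lf e fun q y x => b k x y q) := by
      unfold H747.gB
      rw [Nat.add_sub_cancel]
      rfl
    have e2 : gC L e C (k + L) = encR L (lf e fun q z x => (fun x z => C k z x) x z q) := by
      unfold H747.gC
      rw [Nat.add_sub_cancel]
      rfl
    rw [e1, e2, M2_lab he hm hk1 (b k) (fun x z => C k z x)]
    unfold gx phs
    simp only [Matrix.smul_mul, Matrix.mul_smul, trace_smul, smul_eq_mul, pow_add]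
    ring
  simp only [hnode]
  refine (sum_le_sum_of_subset_of_nonneg (hs k hk) fun m _ _ => mul_nonneg (by positivity)
    (mul_nonneg (by positivity) (gx_nonneg ..))).trans (le_of_eq ?_)
  rw [PL.H804.sum_bx3_32]
  unfold H103.GW
  rw [mul_sum, mul_sum]
  refine sum_congr rfl fun m3 _ => ?_
  rw [mul_sum, mul_sum]
  refine sum_congr rfl fun m2 _ => ?_
  split_ifs
  · rfl
  · rw [mul_zero, mul_zero]

omit [Fintype κ] in
/-- the sign of the positions is the sign of the middle half -/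
theorem hL_rr (k : ℕ) : hL κ (k + 1) = rr k κ := by
  unfold H297.Ch.rr H297.Ch.rx H536.hL
  ext p q
  have hd1 : PL.H588.hd (k + 1) = diagonal fun i : Ix (k + 1) => hs (k + 1) (val (k + 1) i : ℤ) :=
    H536.hd_diag (by omega)
  have h2 : ∀ i : Ix (k + 1), hs (k + 1) (val (k + 1) i : ℤ) = rad (Ix k) i i := by
    intro i
    have h3 := congrFun (congrFun hd1 i) i
    rw [diagonal_apply_eq] at h3
    exact h3.symm
  obtain ⟨j, a⟩ := p
  obtain ⟨j', a'⟩ := q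
  rw [Matrix.submatrix_apply, Matrix.diagonal_apply]
  simp only [h2]
  rcases j with j | j <;> rcases j' with j' | j'
  · change (if ((Sum.inl j, a) : (Ix k ⊕ Ix k) × κ) = (Sum.inl j', a') then _ else _) =
      rad (Ix k × κ) (Sum.inl (j, a)) (Sum.inl (j', a'))
    unfold rad
    rw [fromBlocks_apply₁₁, fromBlocks_apply₁₁, Matrix.one_apply, Matrix.one_apply]
    simp
  · change (if ((Sum.inl j, a) : (Ix k ⊕ Ix k) × κ) = (Sum.inr j', a') then _ else _) =
      rad (Ix k × κ) (Sum.inl (j, a)) (Sum.inr (j', a'))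
    unfold rad
    rw [fromBlocks_apply₁₂]
    simp
  · change (if ((Sum.inr j, a) : (Ix k ⊕ Ix k) × κ) = (Sum.inl j', a') then _ else _) =
      rad (Ix k × κ) (Sum.inr (j, a)) (Sum.inl (j', a'))
    unfold rad
    rw [fromBlocks_apply₂₁]
    simp
  · change (if ((Sum.inr j, a) : (Ix k ⊕ Ix k) × κ) = (Sum.inr j', a') then _ else _) =
      rad (Ix k × κ) (Sum.inr (j, a)) (Sum.inr (j', a'))
    unfold rad
    rw [fromBlocks_apply₂₂, fromBlocks_apply₂₂, Matrix.neg_apply, Matrix.neg_apply,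
      Matrix.one_apply, Matrix.one_apply]
    simp only [Sum.inr.injEq, Prod.mk.injEq, if_true]
    split_ifs <;> simp

/-- **The same in the letters of `PairO` and `StkO`**, scales `k + 1`. -/
theorem RP_x' (he : Function.Injective e) (hm : ∀ i, e i ∈ lbs L) {N : ℕ} {R : Pt} {c : ℕ → ℤ}
    {s : ℕ → Finset Pt} (hs : ∀ k ∈ Icc 1 N, s k ⊆ bx3 N R k (c k))
    (b C : ℕ → ℤ → ℤ → κ → ℝ) (x y : ℝ) :
    RP (N + L) (sL L s) x y (fun k m => bl k (gB L e b k) m.2.1 m.2.2)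
      (fun k m => (bl k (gC L e C k) m.1 m.2.2)ᵀ) ≤
    4 ^ L * ∑ k ∈ Ico 0 N, GW N R.2.1 R.2.2 R.1 (k + 1) (c (k + 1)) (fun n n' m =>
      (phs (x ^ 2) (Py (sl (k + 1) m (b (k + 1))) (k + 1) n) *
        (rr k κ * phs (y ^ 2) (Py (sl (k + 1) m fun x z => C (k + 1) z x) (k + 1) n') *
          rr k κ)).trace) := by
  refine (RP_x he hm hs b C x y).trans (le_of_eq ?_)
  have h := sum_Ico_add' (fun k => GW N R.2.1 R.2.2 R.1 k (c k) (gx x y b C k)) 0 N 1
  rw [zero_add] at h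
  have h2 : ∑ k ∈ Icc 1 N, GW N R.2.1 R.2.2 R.1 k (c k) (gx x y b C k) =
      ∑ k ∈ Ico 1 (N + 1), GW N R.2.1 R.2.2 R.1 k (c k) (gx x y b C k) := rfl
  rw [h2, ← h]
  unfold gx
  simp only [hL_rr]

/-- **Raw partner `b`.** -/
theorem RP_x_raw (he : Function.Injective e) (hm : ∀ i, e i ∈ lbs L) {N : ℕ} {R : Pt} {c : ℕ → ℤ}
    {s : ℕ → Finset Pt} (hs : ∀ k ∈ Icc 1 N, s k ⊆ bx3 N R k (c k))
    (b C : ℕ → ℤ → ℤ → κ → ℝ) {x : ℝ} (hx : 0 < x) (y : ℝ) :
    RP (N + L) (sL L s) x y (fun k m => bl k (gB L e b k) m.2.1 m.2.2)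
      (fun k m => (bl k (gC L e C k) m.1 m.2.2)ᵀ) ≤
    4 ^ L * ∑ k ∈ Ico 0 N, GW N R.2.1 R.2.2 R.1 (k + 1) (c (k + 1)) (fun n n' m =>
      (Py (sl (k + 1) m (b (k + 1))) (k + 1) n *
        (rr k κ * phs (y ^ 2) (Py (sl (k + 1) m fun x z => C (k + 1) z x) (k + 1) n') *
          rr k κ)).trace) := by
  refine (RP_x' he hm hs b C x y).trans ?_
  refine mul_le_mul_of_nonneg_left ?_ (by positivity)
  refine sum_le_sum fun k _ => ?_
  unfold H103.GW
  refine mul_le_mul_of_nonneg_left ?_ (by positivity)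
  refine sum_le_sum fun m _ => sum_le_sum fun n _ => ?_
  split_ifs
  · have hQ : (rr k κ * phs (y ^ 2) (Py (sl (k + 1) m fun x z => C (k + 1) z x) (k + 1)
        (c (k + 1) - m - n)) * rr k κ).PosSemidef := by
      rw [← hL_rr]
      exact psd_conj_symm ((phi_psd ((Py_PSD _ _ _).smul (by positivity))).smul (by positivity))
        (hL_symm (k + 1))
    exact trace_mul_le_left hQ (phs_le (by positivity) (Py_PSD _ _ _))
  · exact le_rfl

end

end Vale.Agent.P141.H43.RpX
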