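import Vale.Agent.P141.H43.RpX
import Vale.Agent.P141.H103.MidK

/-!
# P141, line (A): the pair sum `RP` at the hub `x3` as plane sums

`FC` against `FA`: the labels of `x3` are dummy, the Gram matrices are
`QW k k (fun x z => C k z x) 1` and `PA (fun y z => A k z y) k k`.
-/

namespace Vale.Agent.P141.H43.RpX

open Finset Matrix Vale.Agent.P075 Vale.Agent.P141.PL
open Vale.Agent.P141.PL.H588 (hd Pl)
open Vale.Agent.P141.PL.H804 (bx3 bl M2)
open Vale.Agent.P141.H958 (lbs encR dup)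
open Vale.Agent.P141.H609 (RP NM)
open Vale.Agent.P141.H103 (GW QW PA)
open Vale.Agent.P141.H338 (cu lf)
open Vale.Agent.P141.H536 (TE TE_iso mx bl_enc DE DE_iso DE_mul DE_apply hd_diag ix_pos)
open Vale.Agent.P141.H747 (sL gA gB gC sum_sL)
open Vale.Agent.P141.H585.PairCh (phs)

noncomputable section

/-! ### An isometry -/

/-- `phi` and an isometry -/
theorem phi_isom {α β : Type*} [Fintype α] [DecidableEq α] [Fintype β] [DecidableEq β]
    {V : Matrix α β ℝ} (hV : Vᵀ * V = 1) {X : Matrix β β ℝ} (hX : X.PosSemidef) :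
    phi (V * X * Vᵀ) = V * phi X * Vᵀ := by
  have h1 : (1 + V * X * Vᵀ) * (1 - V * phi X * Vᵀ) = 1 := by
    have h2 : V * X * Vᵀ * (V * phi X * Vᵀ) = V * (X * phi X) * Vᵀ := by
      rw [show V * X * Vᵀ * (V * phi X * Vᵀ) = V * X * (Vᵀ * V) * phi X * Vᵀ by
        simp only [Matrix.mul_assoc], hV, Matrix.mul_one]
      simp only [Matrix.mul_assoc]
    have h3 : X * phi X = X - phi X := by
      have := mul_res hX
      rw [phi, Matrix.mul_sub, Matrix.mul_one, this]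
    rw [Matrix.add_mul, Matrix.one_mul, Matrix.mul_sub, Matrix.mul_one, h2, h3, Matrix.mul_sub,
      Matrix.sub_mul]
    abel
  have h4 : res (V * X * Vᵀ) = 1 - V * phi X * Vᵀ := by
    rw [res]
    exact Matrix.inv_eq_right_inv h1
  rw [phi, h4]
  abel

/-- two Gram matrices under one isometry -/
theorem M2_isom {α β : Type*} [Fintype α] [DecidableEq α] [Fintype β] [DecidableEq β]
    {V : Matrix α β ℝ} (hV : Vᵀ * V = 1) {h : Matrix α α ℝ} {h' : Matrix β β ℝ} (hh : hᵀ = h)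
    (hh' : h'ᵀ = h') (hhV : h * V = V * h') {μ ν : ℝ} {F H : Matrix α α ℝ} {P Q : Matrix β β ℝ}
    (hP : P.PosSemidef) (hQ : Q.PosSemidef) (eF : gramC μ F = V * P * Vᵀ)
    (eH : gramR ν H = V * Q * Vᵀ) :
    M2 h μ ν F H = (phi P * (h' * phi Q * h')).trace := by
  unfold PL.H804.M2
  rw [eF, eH, phi_isom hV hP, phi_isom hV hQ]
  have h2 : Vᵀ * h = h' * Vᵀ := by
    have h3 := congrArg Matrix.transpose hhV
    rwa [transpose_mul, transpose_mul, hh, hh'] at h3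
  have h1 : h * (V * phi Q * Vᵀ) * h = V * (h' * phi Q * h') * Vᵀ := by
    calc h * (V * phi Q * Vᵀ) * h = (h * V) * phi Q * (Vᵀ * h) := by
          simp only [Matrix.mul_assoc]
      _ = _ := by rw [hhV, h2]; simp only [Matrix.mul_assoc]
  rw [h1]
  calc (V * phi P * Vᵀ * (V * (h' * phi Q * h') * Vᵀ)).trace
      = (V * (phi P * (Vᵀ * V) * (h' * phi Q * h')) * Vᵀ).trace := by
        simp only [Matrix.mul_assoc]
    _ = (V * (phi P * (h' * phi Q * h')) * Vᵀ).trace := by rw [hV, Matrix.mul_one]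
    _ = (Vᵀ * (V * (phi P * (h' * phi Q * h')))).trace := trace_mul_comm _ _
    _ = _ := by rw [← Matrix.mul_assoc, hV, Matrix.one_mul]

/-! ### The dummy digits -/

/-- the isometry of the positions -/
def VD (L k : ℕ) : Matrix (Ix (k + L)) (Ix k) ℝ := (√(2 ^ L : ℝ))⁻¹ • DE L k

theorem sqrt_inv_mul (L : ℕ) : (√(2 ^ L : ℝ))⁻¹ * (√(2 ^ L : ℝ))⁻¹ = (2 ^ L : ℝ)⁻¹ := by
  rw [← mul_inv, Real.mul_self_sqrt (by positivity)]

theorem VD_iso (L k : ℕ) : (VD L k)ᵀ * VD L k = 1 := by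
  unfold VD
  rw [transpose_smul, Matrix.smul_mul, Matrix.mul_smul, smul_smul, sqrt_inv_mul, DE_iso, smul_smul,
    inv_mul_cancel₀ (by positivity), one_smul]

theorem hd_VD (L : ℕ) {k : ℕ} (hk : 1 ≤ k) : hd (k + L) * VD L k = VD L k * hd k := by
  unfold VD
  rw [Matrix.mul_smul, Matrix.smul_mul]
  congr 1
  ext i p
  rw [hd_diag (by omega), hd_diag hk, Matrix.diagonal_mul, Matrix.mul_diagonal, DE_apply]
  split_ifs with h
  · rw [mul_one, one_mul, H958.hs_add hk]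
    have a1 := ix_pos k L 0 i
    simp only [mul_zero, zero_add] at a1
    rw [a1, h]
  · rw [mul_zero, zero_mul]

theorem VD_conj (L k : ℕ) (X : Matrix (Ix k) (Ix k) ℝ) :
    DE L k * X * (DE L k)ᵀ = (2 ^ L : ℝ) • (VD L k * X * (VD L k)ᵀ) := by
  unfold VD
  rw [transpose_smul, Matrix.smul_mul, Matrix.mul_smul, Matrix.smul_mul, smul_smul, smul_smul,
    mul_assoc, sqrt_inv_mul, mul_inv_cancel₀ (by positivity), one_smul]

/-- the block of a function without labels -/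
theorem bl_dup (L k : ℕ) (A : ℤ → ℤ → ℝ) (n m : ℤ) :
    bl (k + L) (dup L A) n m = DE L k * bl k A n m * (DE L k)ᵀ := by
  ext i i'
  have h : (DE L k * bl k A n m * (DE L k)ᵀ) i i' =
      (DE L k * bl k A n m) i (H536.dp k L i') := by
    rw [Matrix.mul_apply]
    simp only [Matrix.transpose_apply, DE_apply, mul_ite, mul_one, mul_zero]
    rw [Finset.sum_ite_eq]
    simp
  rw [h, DE_mul]
  change dup L A (2 ^ (k + L) * n + val (k + L) i) (2 ^ (k + L) * m + val (k + L) i') = _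
  rw [H958.dup_apply, ix_pos, ix_pos]
  rfl

/-- Gram matrix of `A` in the first variable -/
theorem gramR_dup (L k : ℕ) (A : ℤ → ℤ → ℝ) (n m : ℤ) (y : ℝ) :
    gramR ((y ^ 2)⁻¹ * (4 ^ (k + L))⁻¹) (bl (k + L) (dup L A) n m) =
      VD L k * ((y ^ 2)⁻¹ • PA (fun y z => A z y) k k m n) * (VD L k)ᵀ := by
  unfold gramR
  have h1 : bl (k + L) (dup L A) n m * (bl (k + L) (dup L A) n m)ᵀ =
      (2 ^ L : ℝ) • (DE L k * (bl k A n m * (bl k A n m)ᵀ) * (DE L k)ᵀ) := by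
    rw [bl_dup, transpose_mul, transpose_mul, transpose_transpose]
    rw [show DE L k * bl k A n m * (DE L k)ᵀ * (DE L k * ((bl k A n m)ᵀ * (DE L k)ᵀ)) =
      DE L k * (bl k A n m * ((DE L k)ᵀ * DE L k) * (bl k A n m)ᵀ) * (DE L k)ᵀ by
        simp only [Matrix.mul_assoc], DE_iso]
    simp only [Matrix.mul_smul, Matrix.smul_mul, Matrix.mul_one]
  have h2 : PA (fun y z => A z y) k k m n =
      ((2 : ℝ) ^ k * 2 ^ k)⁻¹ • (bl k A n m * (bl k A n m)ᵀ) := by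
    unfold H103.PA PL.H588.Xg
    congr 1
  rw [h1, VD_conj, h2]
  simp only [Matrix.mul_smul, Matrix.smul_mul, smul_smul]
  congr 1
  have e4 : (4 : ℝ) ^ (k + L) = 2 ^ k * 2 ^ k * (2 ^ L * 2 ^ L) := by
    rw [pow_add, ← mul_pow, ← mul_pow]; norm_num
  rw [e4]
  field_simp

variable {κ : Type*} [Fintype κ] [DecidableEq κ] {L : ℕ} {e : κ → ℤ}

omit [DecidableEq κ] in
theorem gram_QW (k : ℕ) (w : ℤ → ℤ → κ → ℝ) [DecidableEq κ] (n m : ℤ) :
    mx k (fun q z x => w x z q) n m * (mx k (fun q z x => w x z q) n m)ᵀ =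
      (4 ^ k : ℝ) • QW k k w (fun _ => 1) m n := by
  ext i j
  rw [Matrix.mul_apply, Matrix.smul_apply, smul_eq_mul]
  unfold H103.QW
  rw [PL.H588.sum_iv, Fintype.sum_prod_type]
  have e4 : (4 : ℝ) ^ k = 2 ^ k * 2 ^ k := by rw [← mul_pow]; norm_num
  rw [e4, ← mul_assoc, mul_inv_cancel₀ (by positivity), one_mul]
  refine sum_congr rfl fun p _ => ?_
  rw [one_mulVec]
  unfold dotProduct
  refine sum_congr rfl fun q _ => ?_
  rfl

/-- Gram matrix of `C` in the first variable -/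
theorem gramC_enc (he : Function.Injective e) (hm : ∀ i, e i ∈ lbs L) (k : ℕ)
    (w : ℤ → ℤ → κ → ℝ) (n m : ℤ) (x : ℝ) :
    gramC ((x ^ 2)⁻¹ * (4 ^ (k + L))⁻¹) (bl (k + L) (encR L (lf e fun q z x => w x z q)) n m)ᵀ =
      VD L k * ((x ^ 2)⁻¹ • QW k k w (fun _ => 1) m n) * (VD L k)ᵀ := by
  unfold gramC
  have h1 : (bl (k + L) (encR L (lf e fun q z x => w x z q)) n m)ᵀᵀ *
      (bl (k + L) (encR L (lf e fun q z x => w x z q)) n m)ᵀ =
      (2 ^ L : ℝ) • (DE L k * ((4 ^ k : ℝ) • QW k k w (fun _ => 1) m n) * (DE L k)ᵀ) := by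
    rw [transpose_transpose, bl_enc, transpose_smul, transpose_mul, transpose_mul,
      transpose_transpose, Matrix.smul_mul, Matrix.mul_smul, smul_smul, H536.two_pow_sqrt,
      ← gram_QW]
    congr 1
    rw [show DE L k * mx k (fun q z x => w x z q) n m * (TE L e k)ᵀ *
      (TE L e k * ((mx k (fun q z x => w x z q) n m)ᵀ * (DE L k)ᵀ)) =
      DE L k * (mx k (fun q z x => w x z q) n m * ((TE L e k)ᵀ * TE L e k) *
        (mx k (fun q z x => w x z q) n m)ᵀ) * (DE L k)ᵀ by simp only [Matrix.mul_assoc],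
      TE_iso he hm, Matrix.mul_one]
  rw [h1, VD_conj]
  simp only [Matrix.mul_smul, Matrix.smul_mul, smul_smul]
  congr 1
  have e4 : (4 : ℝ) ^ (k + L) = 4 ^ k * (2 ^ L * 2 ^ L) := by
    rw [pow_add, ← mul_pow (2 : ℝ) 2 L]; norm_num
  rw [e4]
  field_simp

theorem QW1_psd (k : ℕ) (w : ℤ → ℤ → κ → ℝ) (n m : ℤ) :
    (QW k k w (fun _ => 1) n m).PosSemidef :=
  H103.QW_psd (fun _ => PosSemidef.one) n m

theorem PA_psd' (A : ℤ → ℤ → ℝ) (k : ℕ) (n m : ℤ) : (PA A k k n m).PosSemidef := by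
  rw [H103.PA_eq]
  unfold H103.QK
  exact H103.QW_psd (fun _ => by rw [inv_one]; exact PosSemidef.one) n m

/-- the saturated pair at a node, hub `x3`: `A` first -/
def gz (x y : ℝ) (A : ℕ → ℤ → ℤ → ℝ) (C : ℕ → ℤ → ℤ → κ → ℝ) (k : ℕ) (n n' m : ℤ) : ℝ :=
  (phs (y ^ 2) (PA (fun y z => A k z y) k k n m) *
    (hd k * phs (x ^ 2) (QW k k (fun x z => C k z x) (fun _ => 1) n' m) * hd k)).trace

/-- the two factors exchanged -/
theorem tr_swap {n : Type*} [Fintype n] (P Q h : Matrix n n ℝ) :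
    (P * (h * Q * h)).trace = (Q * (h * P * h)).trace := by
  calc (P * (h * Q * h)).trace = ((P * h * Q) * h).trace := by simp only [Matrix.mul_assoc]
    _ = (h * (P * h * Q)).trace := trace_mul_comm _ _
    _ = ((h * P * h) * Q).trace := by simp only [Matrix.mul_assoc]
    _ = _ := trace_mul_comm _ _

theorem gz_nonneg (x y : ℝ) (A : ℕ → ℤ → ℤ → ℝ) (C : ℕ → ℤ → ℤ → κ → ℝ) (k : ℕ) (n n' m : ℤ) :
    0 ≤ gz x y A C k n n' m := by
  unfold gz phs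
  refine trace_mul_nonneg ?_ (psd_conj_symm ?_ (PL.H804.hd_symm k))
  · exact (phi_psd ((PA_psd' _ _ _ _).smul (by positivity))).smul (by positivity)
  · exact (phi_psd ((QW1_psd _ _ _ _).smul (by positivity))).smul (by positivity)

/-- **Hub `x3`: the pair sum `RP` of `C` and `A` as plane sums** (`A` is the first family). -/
theorem RP_z (he : Function.Injective e) (hm : ∀ i, e i ∈ lbs L) {N : ℕ} {R : Pt} {c : ℕ → ℤ}
    {s : ℕ → Finset Pt} (hs : ∀ k ∈ Icc 1 N, s k ⊆ bx3 N R k (c k))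
    (A : ℕ → ℤ → ℤ → ℝ) (C : ℕ → ℤ → ℤ → κ → ℝ) (x y : ℝ) :
    RP (N + L) (sL L s) x y (fun k m => (bl k (gC L e C k) m.1 m.2.2)ᵀ)
      (fun k m => bl k (gA L A k) m.1 m.2.1) ≤
    4 ^ L * ∑ k ∈ Icc 1 N, GW N R.2.1 R.1 R.2.2 k (c k) (gz x y A C k) := by
  unfold H609.RP
  rw [sum_sL L N s fun k m => x ^ 2 * y ^ 2 * (4 ^ k * M2 (hd k) ((x ^ 2)⁻¹ * (4 ^ k)⁻¹)
    ((y ^ 2)⁻¹ * (4 ^ k)⁻¹) (bl k (gC L e C k) m.1 m.2.2)ᵀ (bl k (gA L A k) m.1 m.2.1)), mul_sum]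
  refine sum_le_sum fun k hk => ?_
  have hk1 := (mem_Icc.1 hk).1
  have hnode : ∀ m : Pt, x ^ 2 * y ^ 2 * (4 ^ (k + L) * M2 (hd (k + L))
      ((x ^ 2)⁻¹ * (4 ^ (k + L))⁻¹) ((y ^ 2)⁻¹ * (4 ^ (k + L))⁻¹)
      (bl (k + L) (gC L e C (k + L)) m.1 m.2.2)ᵀ (bl (k + L) (gA L A (k + L)) m.1 m.2.1)) =
      4 ^ L * (4 ^ k * gz x y A C k m.2.1 m.2.2 m.1) := by
    intro m
    have e1 : gA L A (k + L) = dup L (A k) := by
      unfold H747.gA
      rw [Nat.add_sub_cancel]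
    have e2 : gC L e C (k + L) = encR L (lf e fun q z x => (fun x z => C k z x) x z q) := by
      unfold H747.gC
      rw [Nat.add_sub_cancel]
      rfl
    rw [e1, e2, M2_isom (VD_iso L k) (PL.H804.hd_symm _) (PL.H804.hd_symm _) (hd_VD L hk1)
      ((QW1_psd _ _ _ _).smul (by positivity)) ((PA_psd' _ _ _ _).smul (by positivity))
      (gramC_enc he hm k (fun x z => C k z x) m.1 m.2.2 x) (gramR_dup L k (A k) m.1 m.2.1 y)]
    unfold gz
    rw [tr_swap]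
    unfold phs
    simp only [Matrix.smul_mul, Matrix.mul_smul, trace_smul, smul_eq_mul, pow_add]
    ring
  simp only [hnode]
  refine (sum_le_sum_of_subset_of_nonneg (hs k hk) fun m _ _ => mul_nonneg (by positivity)
    (mul_nonneg (by positivity) (gz_nonneg ..))).trans (le_of_eq ?_)
  have h12 : ∀ g : Pt → ℝ, ∑ m ∈ bx3 N R k (c k), g m = ∑ m1 ∈ iv (N - k) R.1,
      ∑ m2 ∈ iv (N - k) R.2.1, if c k - m1 - m2 ∈ iv (N - k) R.2.2 then
        g (m1, m2, c k - m1 - m2) else 0 := PL.H804.sum_bx3_12 N R k (c k)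
  rw [h12]
  unfold H103.GW
  rw [mul_sum, mul_sum]
  refine sum_congr rfl fun m1 _ => ?_
  rw [mul_sum, mul_sum]
  refine sum_congr rfl fun m2 _ => ?_
  split_ifs
  · rfl
  · rw [mul_zero, mul_zero]

/-- **The same over the scales `k + 1`**, sign `rad (Ix k)`. -/
theorem RP_z' (he : Function.Injective e) (hm : ∀ i, e i ∈ lbs L) {N : ℕ} {R : Pt} {c : ℕ → ℤ}
    {s : ℕ → Finset Pt} (hs : ∀ k ∈ Icc 1 N, s k ⊆ bx3 N R k (c k))
    (A : ℕ → ℤ → ℤ → ℝ) (C : ℕ → ℤ → ℤ → κ → ℝ) (x y : ℝ) :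
    RP (N + L) (sL L s) x y (fun k m => (bl k (gC L e C k) m.1 m.2.2)ᵀ)
      (fun k m => bl k (gA L A k) m.1 m.2.1) ≤
    4 ^ L * ∑ k ∈ Ico 0 N, GW N R.2.1 R.1 R.2.2 (k + 1) (c (k + 1)) (fun n n' m =>
      (phs (y ^ 2) (PA (fun y z => A (k + 1) z y) (k + 1) (k + 1) n m) *
        (hd (k + 1) * phs (x ^ 2) (QW (k + 1) (k + 1) (fun x z => C (k + 1) z x) (fun _ => 1)
          n' m) * hd (k + 1))).trace) := by
  refine (RP_z he hm hs A C x y).trans (le_of_eq ?_)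
  have h := sum_Ico_add' (fun k => GW N R.2.1 R.1 R.2.2 k (c k) (gz x y A C k)) 0 N 1
  rw [zero_add] at h
  have h2 : ∑ k ∈ Icc 1 N, GW N R.2.1 R.1 R.2.2 k (c k) (gz x y A C k) =
      ∑ k ∈ Ico 1 (N + 1), GW N R.2.1 R.1 R.2.2 k (c k) (gz x y A C k) := rfl
  rw [h2, ← h]
  rfl

/-- **Raw partner `A`.** -/
theorem RP_z_raw (he : Function.Injective e) (hm : ∀ i, e i ∈ lbs L) {N : ℕ} {R : Pt} {c : ℕ → ℤ}
    {s : ℕ → Finset Pt} (hs : ∀ k ∈ Icc 1 N, s k ⊆ bx3 N R k (c k))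
    (A : ℕ → ℤ → ℤ → ℝ) (C : ℕ → ℤ → ℤ → κ → ℝ) (x : ℝ) {y : ℝ} (hy : 0 < y) :
    RP (N + L) (sL L s) x y (fun k m => (bl k (gC L e C k) m.1 m.2.2)ᵀ)
      (fun k m => bl k (gA L A k) m.1 m.2.1) ≤
    4 ^ L * ∑ k ∈ Ico 0 N, GW N R.2.1 R.1 R.2.2 (k + 1) (c (k + 1)) (fun n n' m =>
      (PA (fun y z => A (k + 1) z y) (k + 1) (k + 1) n m *
        (hd (k + 1) * phs (x ^ 2) (QW (k + 1) (k + 1) (fun x z => C (k + 1) z x) (fun _ => 1)
          n' m) * hd (k + 1))).trace) := by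
  refine (RP_z' he hm hs A C x y).trans ?_
  refine mul_le_mul_of_nonneg_left ?_ (by positivity)
  refine sum_le_sum fun k _ => ?_
  unfold H103.GW
  refine mul_le_mul_of_nonneg_left ?_ (by positivity)
  refine sum_le_sum fun m _ => sum_le_sum fun n _ => ?_
  split_ifs
  · refine trace_mul_le_left (psd_conj_symm ?_ (PL.H804.hd_symm _))
      (phs_le (by positivity) (PA_psd' _ _ _ _))
    exact (phi_psd ((QW1_psd _ _ _ _).smul (by positivity))).smul (by positivity)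
  · exact le_rfl

/-! ### Hub `x2` -/

/-- Gram matrix of `A` in the second variable -/
theorem gramC_dup (L k : ℕ) (A : ℤ → ℤ → ℝ) (n m : ℤ) (x : ℝ) :
    gramC ((x ^ 2)⁻¹ * (4 ^ (k + L))⁻¹) (bl (k + L) (dup L A) n m) =
      VD L k * ((x ^ 2)⁻¹ • PA A k k n m) * (VD L k)ᵀ := by
  unfold gramC
  have h1 : (bl (k + L) (dup L A) n m)ᵀ * bl (k + L) (dup L A) n m =
      (2 ^ L : ℝ) • (DE L k * ((bl k A n m)ᵀ * bl k A n m) * (DE L k)ᵀ) := by
    rw [bl_dup, transpose_mul, transpose_mul, transpose_transpose]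
    rw [show DE L k * ((bl k A n m)ᵀ * (DE L k)ᵀ) * (DE L k * bl k A n m * (DE L k)ᵀ) =
      DE L k * ((bl k A n m)ᵀ * ((DE L k)ᵀ * DE L k) * bl k A n m) * (DE L k)ᵀ by
        simp only [Matrix.mul_assoc], DE_iso]
    simp only [Matrix.mul_smul, Matrix.smul_mul, Matrix.mul_one]
  have h2 : PA A k k n m = ((2 : ℝ) ^ k * 2 ^ k)⁻¹ • ((bl k A n m)ᵀ * bl k A n m) := rfl
  rw [h1, VD_conj, h2]
  simp only [Matrix.mul_smul, Matrix.smul_mul, smul_smul]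
  congr 1
  have e4 : (4 : ℝ) ^ (k + L) = 2 ^ k * 2 ^ k * (2 ^ L * 2 ^ L) := by
    rw [pow_add, ← mul_pow, ← mul_pow]; norm_num
  rw [e4]
  field_simp

/-- the saturated pair at a node, hub `x2` -/
def gy (x y : ℝ) (A : ℕ → ℤ → ℤ → ℝ) (b : ℕ → ℤ → ℤ → κ → ℝ) (k : ℕ) (n n' m : ℤ) : ℝ :=
  (phs (x ^ 2) (PA (A k) k k n m) *
    (hd k * phs (y ^ 2) (QW k k (b k) (fun _ => 1) n' m) * hd k)).trace

theorem gy_nonneg (x y : ℝ) (A : ℕ → ℤ → ℤ → ℝ) (b : ℕ → ℤ → ℤ → κ → ℝ) (k : ℕ) (n n' m : ℤ) :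
    0 ≤ gy x y A b k n n' m := by
  unfold gy phs
  refine trace_mul_nonneg ?_ (psd_conj_symm ?_ (PL.H804.hd_symm k))
  · exact (phi_psd ((PA_psd' _ _ _ _).smul (by positivity))).smul (by positivity)
  · exact (phi_psd ((QW1_psd _ _ _ _).smul (by positivity))).smul (by positivity)

/-- **Hub `x2`: the pair sum `RP` of `A` and `b` as plane sums.** -/
theorem RP_y (he : Function.Injective e) (hm : ∀ i, e i ∈ lbs L) {N : ℕ} {R : Pt} {c : ℕ → ℤ}
    {s : ℕ → Finset Pt} (hs : ∀ k ∈ Icc 1 N, s k ⊆ bx3 N R k (c k))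
    (A : ℕ → ℤ → ℤ → ℝ) (b : ℕ → ℤ → ℤ → κ → ℝ) (x y : ℝ) :
    RP (N + L) (sL L s) x y (fun k m => bl k (gA L A k) m.1 m.2.1)
      (fun k m => bl k (gB L e b k) m.2.1 m.2.2) ≤
    4 ^ L * ∑ k ∈ Icc 1 N, GW N R.1 R.2.1 R.2.2 k (c k) (gy x y A b k) := by
  unfold H609.RP
  rw [sum_sL L N s fun k m => x ^ 2 * y ^ 2 * (4 ^ k * M2 (hd k) ((x ^ 2)⁻¹ * (4 ^ k)⁻¹)
    ((y ^ 2)⁻¹ * (4 ^ k)⁻¹) (bl k (gA L A k) m.1 m.2.1) (bl k (gB L e b k) m.2.1 m.2.2)), mul_sum]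
  refine sum_le_sum fun k hk => ?_
  have hk1 := (mem_Icc.1 hk).1
  have hnode : ∀ m : Pt, x ^ 2 * y ^ 2 * (4 ^ (k + L) * M2 (hd (k + L))
      ((x ^ 2)⁻¹ * (4 ^ (k + L))⁻¹) ((y ^ 2)⁻¹ * (4 ^ (k + L))⁻¹)
      (bl (k + L) (gA L A (k + L)) m.1 m.2.1) (bl (k + L) (gB L e b (k + L)) m.2.1 m.2.2)) =
      4 ^ L * (4 ^ k * gy x y A b k m.1 m.2.2 m.2.1) := by
    intro m
    have e1 : gA L A (k + L) = dup L (A k) := by
      unfold H747.gA
      rw [Nat.add_sub_cancel]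
    have e2 : gB L e b (k + L) = encR L (lf e fun q y x => b k x y q) := by
      unfold H747.gB
      rw [Nat.add_sub_cancel]
      rfl
    have e3 : gramR ((y ^ 2)⁻¹ * (4 ^ (k + L))⁻¹)
        (bl (k + L) (encR L (lf e fun q y x => b k x y q)) m.2.1 m.2.2) =
        VD L k * ((y ^ 2)⁻¹ • QW k k (b k) (fun _ => 1) m.2.2 m.2.1) * (VD L k)ᵀ := by
      rw [← gramC_enc he hm k (b k) m.2.1 m.2.2 y]
      unfold gramR gramC
      rw [transpose_transpose]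
    rw [e1, e2, M2_isom (VD_iso L k) (PL.H804.hd_symm _) (PL.H804.hd_symm _) (hd_VD L hk1)
      ((PA_psd' _ _ _ _).smul (by positivity)) ((QW1_psd _ _ _ _).smul (by positivity))
      (gramC_dup L k (A k) m.1 m.2.1 x) e3]
    unfold gy phs
    simp only [Matrix.smul_mul, Matrix.mul_smul, trace_smul, smul_eq_mul, pow_add]
    ring
  simp only [hnode]
  refine (sum_le_sum_of_subset_of_nonneg (hs k hk) fun m _ _ => mul_nonneg (by positivity)
    (mul_nonneg (by positivity) (gy_nonneg ..))).trans (le_of_eq ?_)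
  have h21 : ∀ g : Pt → ℝ, ∑ m ∈ bx3 N R k (c k), g m = ∑ m2 ∈ iv (N - k) R.2.1,
      ∑ m1 ∈ iv (N - k) R.1, if c k - m2 - m1 ∈ iv (N - k) R.2.2 then
        g (m1, m2, c k - m2 - m1) else 0 := PL.H804.sum_bx3_21 N R k (c k)
  rw [h21]
  unfold H103.GW
  rw [mul_sum, mul_sum]
  refine sum_congr rfl fun m2 _ => ?_
  rw [mul_sum, mul_sum]
  refine sum_congr rfl fun m1 _ => ?_
  split_ifs
  · rfl
  · rw [mul_zero, mul_zero]

end

end Vale.Agent.P141.H43.RpX
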