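import Vale.Agent.P141.H43.SeamPM
import Vale.Agent.P141.H505.SkelStack1
import Vale.Agent.P141.H733.RawSum

/-!
# P141, line (A), flow part: the raw pair sums of the stage from the statements of the stack

Letters of `H747.StageM` and of `H505.SkelStack1`.

* `wgt_Q`, `slot_Q` : the weight `ε² + Qᵀ Q` and the slot `(ε ; Q)` of an exact symmetric
  martingale `Q`;
* `LP3`, `LP1` : the left sides of `PairACr`, `PairBCr`; `RX_z_LP`, `RX_x_LP` : the stage sums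
  are at most `4^L` times their sums over `x0`;
* `RX_z_pair`, `RX_x_pair` : the hypotheses `hCA`, `hBC` of `H733.stageY_num`, `H186.close_raw`.
-/

namespace Vale.Agent.P141.H43.Seam

open Finset Matrix Vale.Agent.P075 Vale.Agent.P141.PL
open Vale.Agent.P141.PL.H588 (hd Pl)
open Vale.Agent.P141.H958 (lbs)
open Vale.Agent.P141.H103 (GW QW PA)
open Vale.Agent.P141.H747 (sL)
open Vale.Agent.P141.H585.PairCh (phs)
open Vale.Agent.P141.H389 (gAC)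
open Vale.Agent.P141.H297.Ch (Py sl st WO rr)
open Vale.Agent.P141.H505.Sk1 (W1 W3 WB hdl PairACr PairBCr Num NumX NumA NumB DpN Wgt Slot)

noncomputable section

variable {κ : Type} [Fintype κ] [DecidableEq κ]

/-! ### The weight and the slot -/

theorem wgt_Q (N : ℕ) {ε : ℝ} (hε : ε ≠ 0) {Q : ℕ → ℤ → ℤ → Matrix κ κ ℝ}
    (hs : ∀ k n x, (Q k n x)ᵀ = Q k n x)
    (h : ∀ k n x, Q (k + 1) n x = (1 / 2 : ℝ) • (Q k (2 * n) x + Q k (2 * n + 1) x)) :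
    Wgt N (ε ^ 2) (WQ ε Q) (NQ Q) (MQ Q) (fun _ _ _ => 0) where
  pos := by positivity
  ge x k m := by
    unfold WQ
    rw [add_sub_cancel_left]
    have := posSemidef_conjTranspose_mul_self (Q k m x)
    rwa [conjTranspose_eq_transpose_of_trivial] at this
  wf := wf_Q N hε hs h

/-- the factor `(ε ; Q)` of the weight -/
def LQ (ε : ℝ) (Q : ℕ → ℤ → ℤ → Matrix κ κ ℝ) (x : ℤ) (k : ℕ) (m : ℤ) : Matrix (κ ⊕ κ) κ ℝ :=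
  fromRows (ε • (1 : Matrix κ κ ℝ)) (Q k m x)

/-- the place of the partner -/
def VQ (κ : Type) [Fintype κ] [DecidableEq κ] : Matrix (κ ⊕ κ) κ ℝ := fromRows 0 1

theorem slot_Q (N : ℕ) {ε : ℝ} {Q : ℕ → ℤ → ℤ → Matrix κ κ ℝ}
    (hs : ∀ k n x, (Q k n x)ᵀ = Q k n x)
    (h : ∀ k n x, Q (k + 1) n x = (1 / 2 : ℝ) • (Q k (2 * n) x + Q k (2 * n + 1) x)) :
    Slot N (WQ ε Q) (fun _ _ _ => 0) (LQ ε Q) (VQ κ) (fun x k m => Q k m x)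
      (fun _ _ _ => 0) (fun x k m => DQ Q k m x) where
  LtL x k m := by
    unfold LQ WQ
    rw [transpose_fromRows, fromCols_mul_fromRows, transpose_smul, transpose_one,
      smul_mul_smul_comm, mul_one, ← sq]
  LtV x k m := by
    unfold LQ VQ
    rw [transpose_fromRows, fromCols_mul_fromRows, Matrix.mul_zero, zero_add, Matrix.mul_one, hs]
  V1 := by
    unfold VQ
    rw [transpose_fromRows, fromCols_mul_fromRows, Matrix.mul_zero, zero_add, Matrix.mul_one,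
      transpose_one]
    have e : (2 : ℝ) • (1 : Matrix κ κ ℝ) - 1 = 1 := by module
    rw [e]
    exact PosSemidef.one
  dft _ _ _ p q := by
    rw [zero_mulVec, dotProduct_zero, zero_mulVec, dotProduct_zero]
    norm_num
  left x k m _ := by
    rw [add_zero]
    exact Q_left h k m x
  right x k m _ := by
    rw [add_zero]
    exact Q_right h k m x

/-! ### The two forms of the matrices of hub `x1` -/

theorem LQ_mul (ε : ℝ) (Q : ℕ → ℤ → ℤ → Matrix κ κ ℝ) (x : ℤ) (k : ℕ) (m : ℤ) (v : κ → ℝ) :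
    LQ ε Q x k m *ᵥ v = Sum.elim (ε • v) (Q k m x *ᵥ v) := by
  unfold LQ
  rw [fromRows_mulVec, smul_mulVec, one_mulVec]

theorem VQ_mul (v : κ → ℝ) : VQ κ *ᵥ v = Sum.elim (0 : κ → ℝ) v := by
  unfold VQ
  rw [fromRows_mulVec, zero_mulVec, one_mulVec]

omit [Fintype κ] [DecidableEq κ] in
theorem Py_sl (k a : ℕ) (n m : ℤ) (w : ℤ → ℤ → κ → ℝ) (i j : Ix k × κ) :
    Py (sl k m w) a n i j = ((2 : ℝ) ^ a * 2 ^ k)⁻¹ * ∑ y ∈ iv a n,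
      w (2 ^ k * m + val k i.1) y i.2 * w (2 ^ k * m + val k j.1) y j.2 := by
  have hs := H297.Ch.sqrt_mul_self' k
  unfold H297.Ch.Py H297.Ch.sl Vale.Agent.P141.H43.av
  rw [mul_inv, mul_assoc, mul_sum (s := iv a n) (a := ((2 : ℝ) ^ k)⁻¹)]
  congr 1
  refine sum_congr rfl fun y _ => ?_
  linear_combination (w (2 ^ k * m + val k i.1) y i.2 * w (2 ^ k * m + val k j.1) y j.2) * hs

theorem WO_eq (ε : ℝ) (Q : ℕ → ℤ → ℤ → Matrix κ κ ℝ) (c : ℤ → ℤ → κ → ℝ) (k : ℕ) (n m : ℤ) :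
    WO ε (fun k x n => Q k n x) c k k n m = W1 c (LQ ε Q) k n m := by
  funext i j
  unfold H297.Ch.WO H505.Sk1.W1
  rw [Py_sl]
  congr 1
  refine sum_congr rfl fun y hy => ?_
  unfold H297.Ch.st
  rw [LQ_mul, LQ_mul, mem_iv.1 hy]

theorem WB_eq (b : ℤ → ℤ → κ → ℝ) (k : ℕ) (n m : ℤ) :
    Py (sl k m fun x y => (Sum.elim (0 : κ → ℝ) (b x y) : κ ⊕ κ → ℝ)) k n = WB b (VQ κ) k n m := by
  funext i j
  unfold H505.Sk1.WB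
  rw [Py_sl]
  congr 1
  refine sum_congr rfl fun y _ => ?_
  rw [VQ_mul, VQ_mul]

theorem rr_eq (k : ℕ) (l : Type) [DecidableEq l] : rr k l = hdl l (k + 1) := by
  funext i j
  obtain ⟨i, a⟩ := i
  obtain ⟨j, b⟩ := j
  rcases i with i | i <;> rcases j with j | j
  · change (1 : Matrix (Ix k × l) (Ix k × l) ℝ) (i, a) (j, b) =
      if a = b then (1 : Matrix (Ix k) (Ix k) ℝ) i j else 0
    simp only [Matrix.one_apply, Prod.mk.injEq]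
    by_cases h1 : i = j <;> by_cases h2 : a = b <;> simp [h1, h2]
  · change (0 : ℝ) = if a = b then (0 : ℝ) else 0
    rw [ite_self]
  · change (0 : ℝ) = if a = b then (0 : ℝ) else 0
    rw [ite_self]
  · change -(1 : Matrix (Ix k × l) (Ix k × l) ℝ) (i, a) (j, b) =
      if a = b then -(1 : Matrix (Ix k) (Ix k) ℝ) i j else 0
    simp only [Matrix.one_apply, Prod.mk.injEq]
    by_cases h1 : i = j <;> by_cases h2 : a = b <;> simp [h1, h2]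

/-! ### The left sides of the pair statements -/

/-- left side of `PairACr` -/
def LP3 (N : ℕ) (r1 r2 r3 : ℤ) (pl : ℕ → ℤ) (A : ℕ → ℤ → ℤ → ℝ) (c : ℕ → ℤ → ℤ → κ → ℝ)
    (Th : ℤ → ℕ → ℤ → Matrix κ κ ℝ) (x2 : ℝ) : ℝ :=
  ∑ k ∈ Ico 0 N, GW N r2 r3 r1 (k + 1) (pl (k + 1)) (fun n2 n1 m =>
      (PA (A (k + 1)) (k + 1) (k + 1) n2 m * (hd (k + 1) *
        phs x2 (W3 (c (k + 1)) Th (k + 1) (k + 1) n1 m) * hd (k + 1))).trace)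

/-- left side of `PairBCr` -/
def LP1 {l : Type} [Fintype l] [DecidableEq l] (N : ℕ) (r1 r2 r3 : ℤ) (pl : ℕ → ℤ)
    (b c : ℕ → ℤ → ℤ → κ → ℝ) (L : ℤ → ℕ → ℤ → Matrix l κ ℝ) (V : Matrix l κ ℝ) (x2 : ℝ) : ℝ :=
  ∑ k ∈ Ico 0 N, GW N r2 r1 r3 (k + 1) (pl (k + 1)) (fun n2 n3 n1 =>
      (WB (b (k + 1)) V (k + 1) n2 n1 * (hdl l (k + 1) *
        phs x2 (W1 (c (k + 1)) L (k + 1) n3 n1) * hdl l (k + 1))).trace)

section grid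

open Vale.Agent.P141.H747 (RgS MSb MSc MA MB MC shA shB shC sG)
open Vale.Agent.P141.H677.Sk (FamA FamV Slt)
open Vale.Agent.P141.H795 (ys)
open Vale.Agent.P141.H581 (RX)

/-- the plane of the point `x0` -/
def plx (s : Pt) (j x0 : ℤ) (k : ℕ) : ℤ := ix k (ys (-x0) s) - j

/-- `A` on the grid `s`, as a function of `(x2, x3)` -/
def gAs (K : ℕ) (M s : Pt) (A : FamA) (x0 : ℤ) (k : ℕ) (y z : ℤ) : ℝ := shA K M s (A x0) k z y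

omit [Fintype κ] [DecidableEq κ] in
/-- `b` on the grid `s` -/
def gBs (K : ℕ) (M s : Pt) (b : FamV κ) (x0 : ℤ) (k : ℕ) (x y : ℤ) : κ → ℝ :=
  shB K M s (b x0) k x y

/-- `C` on the grid `s`, as a function of `(x1, x3)` -/
def gCs (K : ℕ) (M s : Pt) (C : FamV κ) (x0 : ℤ) (k : ℕ) (x z : ℤ) : κ → ℝ :=
  shC K M s (C x0) k z x

theorem pl_plx (x0 : ℤ) (s : Pt) {j : ℤ} (hj : j ∈ Icc (0 : ℤ) 2) : Pl (plx s j x0) :=
  pl_grid x0 s hj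

variable {L : ℕ} {e : κ ⊕ κ → ℤ} (K : ℕ) (M : Pt) (R : Slt κ) (A : FamA) (b C : FamV κ)

/-- **Hub `x3`: the stage sum as pair sums.** -/
theorem RX_z_LP (he : Function.Injective e) (hm : ∀ i, e i ∈ lbs L) (ε : ℝ) (s : Pt) (t j : ℤ)
    (q : Pt) (x : ℝ) {y : ℝ} (hy : 0 < y) :
    RX (iv K t) (K + L) (fun x0 => sL L (sG K M (-x0) s j q)) x y (MC K M R C L e ε s)
      (MA K M A L s) ≤
    4 ^ L * ∑ x0 ∈ iv K t, LP3 K (M.1 - q.1) (M.2.1 - q.2.1) (M.2.2 - q.2.2) (plx s j x0)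
      (gAs K M s A x0) (gCs K M s C x0) (WQ ε (RgS R s.2.2 s.1 x0)) (x ^ 2) := by
  refine (RX_z K M R A C he hm ε s t j q x hy).trans (le_of_eq ?_)
  refine congrArg (fun r => 4 ^ L * r) (sum_congr rfl fun x0 _ => sum_congr rfl fun k _ => ?_)
  refine congrArg (GW K _ _ _ (k + 1) _) ?_
  funext n n' m
  exact gAC_hd ..

/-- **Hub `x1`: the stage sum as pair sums.** -/
theorem RX_x_LP (he : Function.Injective e) (hm : ∀ i, e i ∈ lbs L) (ε : ℝ) (s : Pt) (t j : ℤ)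
    (q : Pt) {x : ℝ} (hx : 0 < x) (y : ℝ) :
    RX (iv K t) (K + L) (fun x0 => sL L (sG K M (-x0) s j q)) x y (MB K M b L e s)
      (MC K M R C L e ε s) ≤
    4 ^ L * ∑ x0 ∈ iv K t, LP1 K (M.1 - q.1) (M.2.1 - q.2.1) (M.2.2 - q.2.2) (plx s j x0)
      (gBs K M s b x0) (gCs K M s C x0) (LQ ε (RgS R s.2.2 s.1 x0)) (VQ κ) (y ^ 2) := by
  refine (RX_x K M R b C he hm ε s t j q hx y).trans (le_of_eq ?_)
  refine congrArg (fun r => 4 ^ L * r) (sum_congr rfl fun x0 _ => sum_congr rfl fun k _ => ?_)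
  refine congrArg (GW K _ _ _ (k + 1) _) ?_
  funext n n' m
  have e2 : Py (sl (k + 1) m (MSb K M b s x0 (k + 1))) (k + 1) n =
      WB (gBs K M s b x0 (k + 1)) (VQ κ) (k + 1) n m := WB_eq _ _ _ _
  have e3 : WO ε (fun k x n => RgS R s.2.2 s.1 x0 k n x)
      (fun x z => shC K M s (C x0) (k + 1) z x) (k + 1) (k + 1) n' m =
      W1 (gCs K M s C x0 (k + 1)) (LQ ε (RgS R s.2.2 s.1 x0)) (k + 1) n' m := WO_eq ..
  rw [e2, e3, rr_eq]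

/-- **`hCA` from bounds at every `x0`.** -/
theorem RX_z_of (he : Function.Injective e) (hm : ∀ i, e i ∈ lbs L) (ε : ℝ) (s : Pt) (t j : ℤ)
    (q : Pt) {x τ Λ E' EA' : ℝ} (hτ : 0 < τ) (hΛ : 0 ≤ Λ) {E EA : ℤ → ℝ}
    (hE0 : ∀ x0 ∈ iv K t, 0 ≤ E x0) (hA0 : ∀ x0 ∈ iv K t, 0 ≤ EA x0)
    (hE : ∑ x0 ∈ iv K t, E x0 ≤ E') (hEA : ∑ x0 ∈ iv K t, EA x0 ≤ EA')
    (h : ∀ x0 ∈ iv K t, LP3 K (M.1 - q.1) (M.2.1 - q.2.1) (M.2.2 - q.2.2) (plx s j x0)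
      (gAs K M s A x0) (gCs K M s C x0) (WQ ε (RgS R s.2.2 s.1 x0)) (x ^ 2) ≤
      Λ * (√(x ^ 2 * E x0 * (τ ^ 2 * EA x0)) + τ ^ 2 * E x0)) :
    RX (iv K t) (K + L) (fun x0 => sL L (sG K M (-x0) s j q)) x τ (MC K M R C L e ε s)
      (MA K M A L s) ≤
    (4 ^ L * Λ) * (√(x ^ 2 * E' * (τ ^ 2 * EA')) + τ ^ 2 * E') := by
  refine (RX_z_LP K M R A C he hm ε s t j q x hτ).trans ?_
  rw [mul_assoc]
  refine mul_le_mul_of_nonneg_left ?_ (by positivity)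
  rw [mul_add]
  refine H170.XSumP.sum_pair (iv K t) (a := fun x0 => x ^ 2 * E x0)
    (b := fun x0 => τ ^ 2 * EA x0) (l := fun x0 => Λ * (τ ^ 2 * E x0)) hΛ
    (fun i hi => mul_nonneg (sq_nonneg _) (hE0 i hi))
    (fun i hi => mul_nonneg (sq_nonneg _) (hA0 i hi))
    (fun i hi => (h i hi).trans (le_of_eq (mul_add _ _ _))) ?_ ?_ ?_
  · rw [← mul_sum]
    exact mul_le_mul_of_nonneg_left hE (sq_nonneg _)
  · rw [← mul_sum]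
    exact mul_le_mul_of_nonneg_left hEA (sq_nonneg _)
  · rw [← mul_sum, ← mul_sum]
    exact mul_le_mul_of_nonneg_left (mul_le_mul_of_nonneg_left hE (sq_nonneg _)) hΛ

/-- **`hBC` from bounds at every `x0`.** -/
theorem RX_x_of (he : Function.Injective e) (hm : ∀ i, e i ∈ lbs L) (ε : ℝ) (s : Pt) (t j : ℤ)
    (q : Pt) {x τ Λ E' EB' : ℝ} (hτ : 0 < τ) (hΛ : 0 ≤ Λ) {E EB : ℤ → ℝ}
    (hE0 : ∀ x0 ∈ iv K t, 0 ≤ E x0) (hB0 : ∀ x0 ∈ iv K t, 0 ≤ EB x0)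
    (hE : ∑ x0 ∈ iv K t, E x0 ≤ E') (hEB : ∑ x0 ∈ iv K t, EB x0 ≤ EB')
    (h : ∀ x0 ∈ iv K t, LP1 K (M.1 - q.1) (M.2.1 - q.2.1) (M.2.2 - q.2.2) (plx s j x0)
      (gBs K M s b x0) (gCs K M s C x0) (LQ ε (RgS R s.2.2 s.1 x0)) (VQ κ) (x ^ 2) ≤
      Λ * (√(x ^ 2 * E x0 * (τ ^ 2 * EB x0)) + τ ^ 2 * E x0)) :
    RX (iv K t) (K + L) (fun x0 => sL L (sG K M (-x0) s j q)) τ x (MB K M b L e s)
      (MC K M R C L e ε s) ≤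
    (4 ^ L * Λ) * (√(x ^ 2 * E' * (τ ^ 2 * EB')) + τ ^ 2 * E') := by
  refine (RX_x_LP K M R b C he hm ε s t j q hτ x).trans ?_
  rw [mul_assoc]
  refine mul_le_mul_of_nonneg_left ?_ (by positivity)
  rw [mul_add]
  refine H170.XSumP.sum_pair (iv K t) (a := fun x0 => x ^ 2 * E x0)
    (b := fun x0 => τ ^ 2 * EB x0) (l := fun x0 => Λ * (τ ^ 2 * E x0)) hΛ
    (fun i hi => mul_nonneg (sq_nonneg _) (hE0 i hi))
    (fun i hi => mul_nonneg (sq_nonneg _) (hB0 i hi))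
    (fun i hi => (h i hi).trans (le_of_eq (mul_add _ _ _))) ?_ ?_ ?_
  · rw [← mul_sum]
    exact mul_le_mul_of_nonneg_left hE (sq_nonneg _)
  · rw [← mul_sum]
    exact mul_le_mul_of_nonneg_left hEB (sq_nonneg _)
  · rw [← mul_sum, ← mul_sum]
    exact mul_le_mul_of_nonneg_left (mul_le_mul_of_nonneg_left hE (sq_nonneg _)) hΛ

/-- **`hCA` from the leaf `PairACr`** and the numbers at every `x0`. -/
theorem RX_z_pair {K0 : ℝ} (hP : PairACr K0) (hK0 : 0 ≤ K0) (he : Function.Injective e)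
    (hm : ∀ i, e i ∈ lbs L) {ε : ℝ} (hε : ε ≠ 0)
    (hR : ∀ x0 z x, (R x0 0 z x)ᵀ = R x0 0 z x) (s : Pt) (t : ℤ) {j : ℤ}
    (hj : j ∈ Icc (0 : ℤ) 2) (q : Pt) {x τ E' EA' cC : ℝ} {J : ℕ} (hx : 0 < x) (hτ : 0 < τ)
    (hcC : cC ^ 2 ≤ 4 ^ J * x ^ 2) {E EA : ℤ → ℝ}
    (hE0 : ∀ x0 ∈ iv K t, 0 ≤ E x0) (hA0 : ∀ x0 ∈ iv K t, 0 ≤ EA x0)
    (hE : ∑ x0 ∈ iv K t, E x0 ≤ E') (hEA : ∑ x0 ∈ iv K t, EA x0 ≤ EA')
    {A' : ℤ → ℕ → ℤ → ℤ → ℝ} {b' C' : ℤ → ℕ → ℤ → ℤ → κ → ℝ}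
    (hA' : ∀ x0 ∈ iv K t, ∀ k < K, A' x0 (k + 1) = gAs K M s A x0 (k + 1))
    (hC' : ∀ x0 ∈ iv K t, ∀ k < K, C' x0 (k + 1) = gCs K M s C x0 (k + 1))
    (hN : ∀ x0 ∈ iv K t, Num 0 K (M.1 - q.1) (M.2.1 - q.2.1) (M.2.2 - q.2.2) (plx s j x0)
      (A' x0) (b' x0) (C' x0) (WQ ε (RgS R s.2.2 s.1 x0)) (MQ (RgS R s.2.2 s.1 x0))
      (fun _ _ _ => 0) (E x0) cC)
    (hNA : ∀ x0 ∈ iv K t, NumA 0 K (M.1 - q.1) (M.2.1 - q.2.1) (M.2.2 - q.2.2) (plx s j x0)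
      (A' x0) (C' x0) (τ ^ 2) (EA x0)) :
    RX (iv K t) (K + L) (fun x0 => sL L (sG K M (-x0) s j q)) x τ (MC K M R C L e ε s)
      (MA K M A L s) ≤
    (4 ^ L * (K0 * (J + 1) ^ 3)) * (√(x ^ 2 * E' * (τ ^ 2 * EA')) + τ ^ 2 * E') := by
  refine RX_z_of K M R A C he hm ε s t j q hτ (by positivity) hE0 hA0 hE hEA ?_
  intro x0 h0
  have hs : ∀ k n x, (RgS R s.2.2 s.1 x0 k n x)ᵀ = RgS R s.2.2 s.1 x0 k n x := by
    intro k n x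
    unfold H747.RgS
    rw [transpose_smul, transpose_sum]
    simp only [hR]
  refine le_trans (le_of_eq ?_) (hP 0 K _ _ _ _ _ (A' x0) (b' x0) (C' x0) _ _ _ _ _ _ _ (τ ^ 2)
    (x ^ 2) J (Nat.zero_le _) (pl_plx x0 s hj) (wgt_Q K hε hs fun k n x => H747.RgS_mart ..)
    (hN x0 h0) (hNA x0 h0) (by positivity) (by positivity) hcC)
  unfold LP3
  refine sum_congr rfl fun k hk => ?_
  rw [hA' x0 h0 k (mem_Ico.1 hk).2, hC' x0 h0 k (mem_Ico.1 hk).2]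

omit [Fintype κ] [DecidableEq κ] in
/-- the numbers of `b` with a larger bound -/
theorem NumB_mono [Fintype κ] [DecidableEq κ] {k₀ N : ℕ} {r1 r2 r3 : ℤ} {pl : ℕ → ℤ}
    {b c : ℕ → ℤ → ℤ → κ → ℝ} {β : ℝ} {gm Nm : ℤ → ℕ → ℤ → Matrix κ κ ℝ} {t2 EB EB' : ℝ}
    (h : NumB k₀ N r1 r2 r3 pl b c β gm Nm t2 EB) (hE : EB ≤ EB') :
    NumB k₀ N r1 r2 r3 pl b c β gm Nm t2 EB' :=
  ⟨h.cap, fun k hk => (h.en k hk).trans hE, h.born.trans hE, h.var.trans hE, h.cr.trans hE⟩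

/-- **`hBC` from the leaf `PairBCr`** and the numbers at every `x0`. -/
theorem RX_x_pair {K0 : ℝ} (hP : PairBCr K0) (hK0 : 0 ≤ K0) (he : Function.Injective e)
    (hm : ∀ i, e i ∈ lbs L) {ε : ℝ} (hε : ε ≠ 0)
    (hR : ∀ x0 z x, (R x0 0 z x)ᵀ = R x0 0 z x) (s : Pt) (t : ℤ) {j : ℤ}
    (hj : j ∈ Icc (0 : ℤ) 2) (q : Pt) {x τ E' EB' cC : ℝ} {J : ℕ} (hx : 0 < x) (hτ : 0 < τ)
    (hcC : cC ^ 2 ≤ 4 ^ J * x ^ 2) {E EB : ℤ → ℝ}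
    (hE0 : ∀ x0 ∈ iv K t, 0 ≤ E x0) (hB0 : ∀ x0 ∈ iv K t, 0 ≤ EB x0)
    (hE : ∑ x0 ∈ iv K t, E x0 ≤ E') (hEB : ∑ x0 ∈ iv K t, EB x0 ≤ EB')
    {A' : ℤ → ℕ → ℤ → ℤ → ℝ} {b' C' : ℤ → ℕ → ℤ → ℤ → κ → ℝ}
    (hb' : ∀ x0 ∈ iv K t, ∀ k < K, b' x0 (k + 1) = gBs K M s b x0 (k + 1))
    (hC' : ∀ x0 ∈ iv K t, ∀ k < K, C' x0 (k + 1) = gCs K M s C x0 (k + 1))
    (hN : ∀ x0 ∈ iv K t, Num 0 K (M.1 - q.1) (M.2.1 - q.2.1) (M.2.2 - q.2.2) (plx s j x0)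
      (A' x0) (b' x0) (C' x0) (WQ ε (RgS R s.2.2 s.1 x0)) (MQ (RgS R s.2.2 s.1 x0))
      (fun _ _ _ => 0) (E x0) cC)
    (hX : ∀ x0 ∈ iv K t, NumX 0 K (M.1 - q.1) (M.2.1 - q.2.1) (M.2.2 - q.2.2) (plx s j x0)
      (b' x0) (C' x0) (WQ ε (RgS R s.2.2 s.1 x0)) (MQ (RgS R s.2.2 s.1 x0))
      (fun _ _ _ => 0) (E x0))
    (hD : ∀ x0 ∈ iv K t, DpN 0 K (M.1 - q.1) (M.2.2 - q.2.2) (C' x0)
      (NQ (RgS R s.2.2 s.1 x0)) (fun _ _ _ => 0) (E x0))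
    (hNB : ∀ x0 ∈ iv K t, NumB 0 K (M.1 - q.1) (M.2.1 - q.2.1) (M.2.2 - q.2.2) (plx s j x0)
      (b' x0) (C' x0) (ε ^ 2) (fun x k m => DQ (RgS R s.2.2 s.1 x0) k m x) (fun _ _ _ => 0)
      (τ ^ 2) (EB x0)) :
    RX (iv K t) (K + L) (fun x0 => sL L (sG K M (-x0) s j q)) τ x (MB K M b L e s)
      (MC K M R C L e ε s) ≤
    (4 ^ L * (2 * K0 * (J + 1) ^ 3)) * (√(x ^ 2 * E' * (τ ^ 2 * EB')) + τ ^ 2 * E') := by
  refine RX_x_of K M R b C he hm ε s t j q hτ (by positivity) hE0 hB0 hE hEB ?_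
  intro x0 h0
  have hs : ∀ k n x, (RgS R s.2.2 s.1 x0 k n x)ᵀ = RgS R s.2.2 s.1 x0 k n x := by
    intro k n x
    unfold H747.RgS
    rw [transpose_smul, transpose_sum]
    simp only [hR]
  have hE := hE0 x0 h0
  have hB := hB0 x0 h0
  have hx2 : 0 < x ^ 2 := by positivity
  have hr : 0 ≤ τ ^ 2 / x ^ 2 * E x0 := by positivity
  have hmul : x ^ 2 * (EB x0 + τ ^ 2 / x ^ 2 * E x0) = x ^ 2 * EB x0 + τ ^ 2 * E x0 := by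
    field_simp
  have hm : ∀ k n x, RgS R s.2.2 s.1 x0 (k + 1) n x = (1 / 2 : ℝ) •
      (RgS R s.2.2 s.1 x0 k (2 * n) x + RgS R s.2.2 s.1 x0 k (2 * n + 1) x) :=
    fun k n x => H747.RgS_mart ..
  have h := hP (l := κ ⊕ κ) 0 K _ _ _ _ _ (A' x0) (b' x0) (C' x0) _ _ _ _ (LQ ε _) (VQ κ) _ _ _
    _ (EB x0 + τ ^ 2 / x ^ 2 * E x0) cC (τ ^ 2) (x ^ 2) J (Nat.zero_le _) (pl_plx x0 s hj)
    (wgt_Q K hε hs hm) (slot_Q K hs hm) (hN x0 h0) (hX x0 h0) (hD x0 h0)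
    (NumB_mono (hNB x0 h0) (by linarith)) hx2 (by positivity) hcC
    (by rw [hmul]; nlinarith [mul_nonneg hx2.le hB])
  have e1 : LP1 K (M.1 - q.1) (M.2.1 - q.2.1) (M.2.2 - q.2.2) (plx s j x0)
      (gBs K M s b x0) (gCs K M s C x0) (LQ ε (RgS R s.2.2 s.1 x0)) (VQ κ) (x ^ 2) =
      LP1 K (M.1 - q.1) (M.2.1 - q.2.1) (M.2.2 - q.2.2) (plx s j x0)
      (b' x0) (C' x0) (LQ ε (RgS R s.2.2 s.1 x0)) (VQ κ) (x ^ 2) := by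
    unfold LP1
    refine sum_congr rfl fun k hk => ?_
    rw [hb' x0 h0 k (mem_Ico.1 hk).2, hC' x0 h0 k (mem_Ico.1 hk).2]
  rw [e1]
  refine (h : LP1 _ _ _ _ _ _ _ _ _ _ ≤ _).trans ?_
  have h3 : √(x ^ 2 * E x0 * (τ ^ 2 * (EB x0 + τ ^ 2 / x ^ 2 * E x0))) ≤
      √(x ^ 2 * E x0 * (τ ^ 2 * EB x0)) + τ ^ 2 * E x0 := by
    refine Real.sqrt_le_iff.2 ⟨by positivity, ?_⟩
    have h4 : x ^ 2 * E x0 * (τ ^ 2 * (EB x0 + τ ^ 2 / x ^ 2 * E x0)) =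
        x ^ 2 * E x0 * (τ ^ 2 * EB x0) + (τ ^ 2 * E x0) ^ 2 := by
      field_simp
    have h5 : √(x ^ 2 * E x0 * (τ ^ 2 * EB x0)) ^ 2 = x ^ 2 * E x0 * (τ ^ 2 * EB x0) :=
      Real.sq_sqrt (by positivity)
    have h6 : 0 ≤ √(x ^ 2 * E x0 * (τ ^ 2 * EB x0)) * (τ ^ 2 * E x0) := by positivity
    rw [h4, add_sq, h5]
    linarith
  have h7 : 0 ≤ √(x ^ 2 * E x0 * (τ ^ 2 * EB x0)) := Real.sqrt_nonneg _
  have h8 : √(x ^ 2 * E x0 * (τ ^ 2 * (EB x0 + τ ^ 2 / x ^ 2 * E x0))) + τ ^ 2 * E x0 ≤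
      2 * (√(x ^ 2 * E x0 * (τ ^ 2 * EB x0)) + τ ^ 2 * E x0) := by
    linarith
  calc K0 * (J + 1) ^ 3 *
      (√(x ^ 2 * E x0 * (τ ^ 2 * (EB x0 + τ ^ 2 / x ^ 2 * E x0))) + τ ^ 2 * E x0) ≤
      K0 * (J + 1) ^ 3 * (2 * (√(x ^ 2 * E x0 * (τ ^ 2 * EB x0)) + τ ^ 2 * E x0)) :=
        mul_le_mul_of_nonneg_left h8 (by positivity)
    _ = _ := by ring

end grid

end

end Vale.Agent.P141.H43.Seam
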